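import Vale.Agent.Lib.P045.R42BSound
import Vale.Agent.Lib.P045.R42BC2h
import Vale.Agent.Lib.P045.R42BC2p
import Vale.Agent.Lib.P045.R42BC2x

/-! The kernel-checked blocks of the certificate for matching number two, put together. -/

namespace Vale.Agent.Lib.P045.RK

theorem preB2_0 : Pre 2 tabB2 16 := pre_step 2 tabB2 0 16 (pre_zero 2 tabB2) ckB2_0

theorem preB2_1 : Pre 2 tabB2 32 := pre_step 2 tabB2 16 16 (preB2_0) ckB2_1

theorem preB2_2 : Pre 2 tabB2 48 := pre_step 2 tabB2 32 16 (preB2_1) ckB2_2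

theorem preB2_3 : Pre 2 tabB2 64 := pre_step 2 tabB2 48 16 (preB2_2) ckB2_3

theorem preB2_4 : Pre 2 tabB2 80 := pre_step 2 tabB2 64 16 (preB2_3) ckB2_4

theorem preB2_5 : Pre 2 tabB2 96 := pre_step 2 tabB2 80 16 (preB2_4) ckB2_5

theorem preB2_6 : Pre 2 tabB2 112 := pre_step 2 tabB2 96 16 (preB2_5) ckB2_6

theorem preB2_7 : Pre 2 tabB2 128 := pre_step 2 tabB2 112 16 (preB2_6) ckB2_7

theorem preB2_8 : Pre 2 tabB2 144 := pre_step 2 tabB2 128 16 (preB2_7) ckB2_8

theorem preB2_9 : Pre 2 tabB2 160 := pre_step 2 tabB2 144 16 (preB2_8) ckB2_9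

theorem preB2_10 : Pre 2 tabB2 176 := pre_step 2 tabB2 160 16 (preB2_9) ckB2_10

theorem preB2_11 : Pre 2 tabB2 192 := pre_step 2 tabB2 176 16 (preB2_10) ckB2_11

theorem preB2_12 : Pre 2 tabB2 208 := pre_step 2 tabB2 192 16 (preB2_11) ckB2_12

theorem preB2_13 : Pre 2 tabB2 224 := pre_step 2 tabB2 208 16 (preB2_12) ckB2_13

theorem preB2_14 : Pre 2 tabB2 240 := pre_step 2 tabB2 224 16 (preB2_13) ckB2_14

theorem preB2_15 : Pre 2 tabB2 256 := pre_step 2 tabB2 240 16 (preB2_14) ckB2_15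

theorem preB2_16 : Pre 2 tabB2 272 := pre_step 2 tabB2 256 16 (preB2_15) ckB2_16

theorem preB2_17 : Pre 2 tabB2 288 := pre_step 2 tabB2 272 16 (preB2_16) ckB2_17

theorem preB2_18 : Pre 2 tabB2 304 := pre_step 2 tabB2 288 16 (preB2_17) ckB2_18

theorem preB2_19 : Pre 2 tabB2 320 := pre_step 2 tabB2 304 16 (preB2_18) ckB2_19

theorem preB2_20 : Pre 2 tabB2 336 := pre_step 2 tabB2 320 16 (preB2_19) ckB2_20

theorem preB2_21 : Pre 2 tabB2 352 := pre_step 2 tabB2 336 16 (preB2_20) ckB2_21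

theorem preB2_22 : Pre 2 tabB2 368 := pre_step 2 tabB2 352 16 (preB2_21) ckB2_22

theorem preB2_23 : Pre 2 tabB2 384 := pre_step 2 tabB2 368 16 (preB2_22) ckB2_23

theorem preB2_24 : Pre 2 tabB2 400 := pre_step 2 tabB2 384 16 (preB2_23) ckB2_24

theorem preB2_25 : Pre 2 tabB2 416 := pre_step 2 tabB2 400 16 (preB2_24) ckB2_25

theorem preB2_26 : Pre 2 tabB2 432 := pre_step 2 tabB2 416 16 (preB2_25) ckB2_26

theorem preB2_27 : Pre 2 tabB2 448 := pre_step 2 tabB2 432 16 (preB2_26) ckB2_27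

theorem preB2_28 : Pre 2 tabB2 464 := pre_step 2 tabB2 448 16 (preB2_27) ckB2_28

theorem preB2_29 : Pre 2 tabB2 480 := pre_step 2 tabB2 464 16 (preB2_28) ckB2_29

theorem preB2_30 : Pre 2 tabB2 496 := pre_step 2 tabB2 480 16 (preB2_29) ckB2_30

theorem preB2_31 : Pre 2 tabB2 512 := pre_step 2 tabB2 496 16 (preB2_30) ckB2_31

theorem preB2_32 : Pre 2 tabB2 528 := pre_step 2 tabB2 512 16 (preB2_31) ckB2_32

theorem preB2_33 : Pre 2 tabB2 544 := pre_step 2 tabB2 528 16 (preB2_32) ckB2_33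

theorem preB2_34 : Pre 2 tabB2 560 := pre_step 2 tabB2 544 16 (preB2_33) ckB2_34

theorem preB2_35 : Pre 2 tabB2 576 := pre_step 2 tabB2 560 16 (preB2_34) ckB2_35

theorem preB2_36 : Pre 2 tabB2 592 := pre_step 2 tabB2 576 16 (preB2_35) ckB2_36

theorem preB2_37 : Pre 2 tabB2 608 := pre_step 2 tabB2 592 16 (preB2_36) ckB2_37

theorem preB2_38 : Pre 2 tabB2 624 := pre_step 2 tabB2 608 16 (preB2_37) ckB2_38

theorem preB2_39 : Pre 2 tabB2 640 := pre_step 2 tabB2 624 16 (preB2_38) ckB2_39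

theorem preB2_40 : Pre 2 tabB2 656 := pre_step 2 tabB2 640 16 (preB2_39) ckB2_40

theorem preB2_41 : Pre 2 tabB2 672 := pre_step 2 tabB2 656 16 (preB2_40) ckB2_41

theorem preB2_42 : Pre 2 tabB2 688 := pre_step 2 tabB2 672 16 (preB2_41) ckB2_42

theorem preB2_43 : Pre 2 tabB2 704 := pre_step 2 tabB2 688 16 (preB2_42) ckB2_43

theorem preB2_44 : Pre 2 tabB2 720 := pre_step 2 tabB2 704 16 (preB2_43) ckB2_44

theorem preB2_45 : Pre 2 tabB2 736 := pre_step 2 tabB2 720 16 (preB2_44) ckB2_45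

theorem preB2_46 : Pre 2 tabB2 752 := pre_step 2 tabB2 736 16 (preB2_45) ckB2_46

theorem preB2_47 : Pre 2 tabB2 768 := pre_step 2 tabB2 752 16 (preB2_46) ckB2_47

theorem preB2_48 : Pre 2 tabB2 784 := pre_step 2 tabB2 768 16 (preB2_47) ckB2_48

theorem preB2_49 : Pre 2 tabB2 800 := pre_step 2 tabB2 784 16 (preB2_48) ckB2_49

theorem preB2_50 : Pre 2 tabB2 816 := pre_step 2 tabB2 800 16 (preB2_49) ckB2_50

theorem preB2_51 : Pre 2 tabB2 832 := pre_step 2 tabB2 816 16 (preB2_50) ckB2_51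

theorem preB2_52 : Pre 2 tabB2 848 := pre_step 2 tabB2 832 16 (preB2_51) ckB2_52

theorem preB2_53 : Pre 2 tabB2 864 := pre_step 2 tabB2 848 16 (preB2_52) ckB2_53

theorem preB2_54 : Pre 2 tabB2 880 := pre_step 2 tabB2 864 16 (preB2_53) ckB2_54

theorem preB2_55 : Pre 2 tabB2 896 := pre_step 2 tabB2 880 16 (preB2_54) ckB2_55

theorem preB2_56 : Pre 2 tabB2 912 := pre_step 2 tabB2 896 16 (preB2_55) ckB2_56

theorem preB2_57 : Pre 2 tabB2 928 := pre_step 2 tabB2 912 16 (preB2_56) ckB2_57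

theorem preB2_58 : Pre 2 tabB2 944 := pre_step 2 tabB2 928 16 (preB2_57) ckB2_58

theorem preB2_59 : Pre 2 tabB2 960 := pre_step 2 tabB2 944 16 (preB2_58) ckB2_59

theorem preB2_60 : Pre 2 tabB2 976 := pre_step 2 tabB2 960 16 (preB2_59) ckB2_60

theorem preB2_61 : Pre 2 tabB2 992 := pre_step 2 tabB2 976 16 (preB2_60) ckB2_61

theorem preB2_62 : Pre 2 tabB2 1008 := pre_step 2 tabB2 992 16 (preB2_61) ckB2_62

theorem preB2_63 : Pre 2 tabB2 1024 := pre_step 2 tabB2 1008 16 (preB2_62) ckB2_63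

theorem preB2_64 : Pre 2 tabB2 1040 := pre_step 2 tabB2 1024 16 (preB2_63) ckB2_64

theorem preB2_65 : Pre 2 tabB2 1056 := pre_step 2 tabB2 1040 16 (preB2_64) ckB2_65

theorem preB2_66 : Pre 2 tabB2 1072 := pre_step 2 tabB2 1056 16 (preB2_65) ckB2_66

theorem preB2_67 : Pre 2 tabB2 1088 := pre_step 2 tabB2 1072 16 (preB2_66) ckB2_67

theorem preB2_68 : Pre 2 tabB2 1104 := pre_step 2 tabB2 1088 16 (preB2_67) ckB2_68

theorem preB2_69 : Pre 2 tabB2 1120 := pre_step 2 tabB2 1104 16 (preB2_68) ckB2_69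

theorem preB2_70 : Pre 2 tabB2 1136 := pre_step 2 tabB2 1120 16 (preB2_69) ckB2_70

theorem preB2_71 : Pre 2 tabB2 1152 := pre_step 2 tabB2 1136 16 (preB2_70) ckB2_71

theorem preB2_72 : Pre 2 tabB2 1168 := pre_step 2 tabB2 1152 16 (preB2_71) ckB2_72

theorem preB2_73 : Pre 2 tabB2 1184 := pre_step 2 tabB2 1168 16 (preB2_72) ckB2_73

theorem preB2_74 : Pre 2 tabB2 1200 := pre_step 2 tabB2 1184 16 (preB2_73) ckB2_74

theorem preB2_75 : Pre 2 tabB2 1216 := pre_step 2 tabB2 1200 16 (preB2_74) ckB2_75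

theorem preB2_76 : Pre 2 tabB2 1232 := pre_step 2 tabB2 1216 16 (preB2_75) ckB2_76

theorem preB2_77 : Pre 2 tabB2 1248 := pre_step 2 tabB2 1232 16 (preB2_76) ckB2_77

theorem preB2_78 : Pre 2 tabB2 1264 := pre_step 2 tabB2 1248 16 (preB2_77) ckB2_78

theorem preB2_79 : Pre 2 tabB2 1280 := pre_step 2 tabB2 1264 16 (preB2_78) ckB2_79

theorem preB2_80 : Pre 2 tabB2 1296 := pre_step 2 tabB2 1280 16 (preB2_79) ckB2_80

theorem preB2_81 : Pre 2 tabB2 1312 := pre_step 2 tabB2 1296 16 (preB2_80) ckB2_81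

theorem preB2_82 : Pre 2 tabB2 1328 := pre_step 2 tabB2 1312 16 (preB2_81) ckB2_82

theorem preB2_83 : Pre 2 tabB2 1344 := pre_step 2 tabB2 1328 16 (preB2_82) ckB2_83

theorem preB2_84 : Pre 2 tabB2 1360 := pre_step 2 tabB2 1344 16 (preB2_83) ckB2_84

theorem preB2_85 : Pre 2 tabB2 1376 := pre_step 2 tabB2 1360 16 (preB2_84) ckB2_85

theorem preB2_86 : Pre 2 tabB2 1392 := pre_step 2 tabB2 1376 16 (preB2_85) ckB2_86

theorem preB2_87 : Pre 2 tabB2 1408 := pre_step 2 tabB2 1392 16 (preB2_86) ckB2_87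

theorem preB2_88 : Pre 2 tabB2 1424 := pre_step 2 tabB2 1408 16 (preB2_87) ckB2_88

theorem preB2_89 : Pre 2 tabB2 1440 := pre_step 2 tabB2 1424 16 (preB2_88) ckB2_89

theorem preB2_90 : Pre 2 tabB2 1456 := pre_step 2 tabB2 1440 16 (preB2_89) ckB2_90

theorem preB2_91 : Pre 2 tabB2 1472 := pre_step 2 tabB2 1456 16 (preB2_90) ckB2_91

theorem preB2_92 : Pre 2 tabB2 1488 := pre_step 2 tabB2 1472 16 (preB2_91) ckB2_92

theorem preB2_93 : Pre 2 tabB2 1504 := pre_step 2 tabB2 1488 16 (preB2_92) ckB2_93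

theorem preB2_94 : Pre 2 tabB2 1520 := pre_step 2 tabB2 1504 16 (preB2_93) ckB2_94

theorem preB2_95 : Pre 2 tabB2 1536 := pre_step 2 tabB2 1520 16 (preB2_94) ckB2_95

theorem preB2_96 : Pre 2 tabB2 1552 := pre_step 2 tabB2 1536 16 (preB2_95) ckB2_96

theorem preB2_97 : Pre 2 tabB2 1568 := pre_step 2 tabB2 1552 16 (preB2_96) ckB2_97

theorem preB2_98 : Pre 2 tabB2 1584 := pre_step 2 tabB2 1568 16 (preB2_97) ckB2_98

theorem preB2_99 : Pre 2 tabB2 1600 := pre_step 2 tabB2 1584 16 (preB2_98) ckB2_99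

theorem preB2_100 : Pre 2 tabB2 1616 := pre_step 2 tabB2 1600 16 (preB2_99) ckB2_100

theorem preB2_101 : Pre 2 tabB2 1632 := pre_step 2 tabB2 1616 16 (preB2_100) ckB2_101

theorem preB2_102 : Pre 2 tabB2 1648 := pre_step 2 tabB2 1632 16 (preB2_101) ckB2_102

theorem preB2_103 : Pre 2 tabB2 1664 := pre_step 2 tabB2 1648 16 (preB2_102) ckB2_103

theorem preB2_104 : Pre 2 tabB2 1680 := pre_step 2 tabB2 1664 16 (preB2_103) ckB2_104

theorem preB2_105 : Pre 2 tabB2 1696 := pre_step 2 tabB2 1680 16 (preB2_104) ckB2_105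

theorem preB2_106 : Pre 2 tabB2 1712 := pre_step 2 tabB2 1696 16 (preB2_105) ckB2_106

theorem preB2_107 : Pre 2 tabB2 1728 := pre_step 2 tabB2 1712 16 (preB2_106) ckB2_107

theorem preB2_108 : Pre 2 tabB2 1744 := pre_step 2 tabB2 1728 16 (preB2_107) ckB2_108

theorem preB2_109 : Pre 2 tabB2 1760 := pre_step 2 tabB2 1744 16 (preB2_108) ckB2_109

theorem preB2_110 : Pre 2 tabB2 1776 := pre_step 2 tabB2 1760 16 (preB2_109) ckB2_110

theorem preB2_111 : Pre 2 tabB2 1792 := pre_step 2 tabB2 1776 16 (preB2_110) ckB2_111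

theorem preB2_112 : Pre 2 tabB2 1808 := pre_step 2 tabB2 1792 16 (preB2_111) ckB2_112

theorem preB2_113 : Pre 2 tabB2 1824 := pre_step 2 tabB2 1808 16 (preB2_112) ckB2_113

theorem preB2_114 : Pre 2 tabB2 1840 := pre_step 2 tabB2 1824 16 (preB2_113) ckB2_114

theorem preB2_115 : Pre 2 tabB2 1856 := pre_step 2 tabB2 1840 16 (preB2_114) ckB2_115

theorem preB2_116 : Pre 2 tabB2 1872 := pre_step 2 tabB2 1856 16 (preB2_115) ckB2_116

theorem preB2_117 : Pre 2 tabB2 1888 := pre_step 2 tabB2 1872 16 (preB2_116) ckB2_117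

theorem preB2_118 : Pre 2 tabB2 1904 := pre_step 2 tabB2 1888 16 (preB2_117) ckB2_118

theorem preB2_119 : Pre 2 tabB2 1920 := pre_step 2 tabB2 1904 16 (preB2_118) ckB2_119

theorem preB2_120 : Pre 2 tabB2 1936 := pre_step 2 tabB2 1920 16 (preB2_119) ckB2_120

theorem preB2_121 : Pre 2 tabB2 1952 := pre_step 2 tabB2 1936 16 (preB2_120) ckB2_121

theorem preB2_122 : Pre 2 tabB2 1968 := pre_step 2 tabB2 1952 16 (preB2_121) ckB2_122

theorem preB2_123 : Pre 2 tabB2 1984 := pre_step 2 tabB2 1968 16 (preB2_122) ckB2_123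

theorem preB2_124 : Pre 2 tabB2 2000 := pre_step 2 tabB2 1984 16 (preB2_123) ckB2_124

theorem preB2_125 : Pre 2 tabB2 2016 := pre_step 2 tabB2 2000 16 (preB2_124) ckB2_125

theorem preB2_126 : Pre 2 tabB2 2032 := pre_step 2 tabB2 2016 16 (preB2_125) ckB2_126

theorem preB2_127 : Pre 2 tabB2 2048 := pre_step 2 tabB2 2032 16 (preB2_126) ckB2_127

theorem preB2_128 : Pre 2 tabB2 2064 := pre_step 2 tabB2 2048 16 (preB2_127) ckB2_128

theorem preB2_129 : Pre 2 tabB2 2080 := pre_step 2 tabB2 2064 16 (preB2_128) ckB2_129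

theorem preB2_130 : Pre 2 tabB2 2096 := pre_step 2 tabB2 2080 16 (preB2_129) ckB2_130

theorem preB2_131 : Pre 2 tabB2 2112 := pre_step 2 tabB2 2096 16 (preB2_130) ckB2_131

theorem preB2_132 : Pre 2 tabB2 2128 := pre_step 2 tabB2 2112 16 (preB2_131) ckB2_132

theorem preB2_133 : Pre 2 tabB2 2144 := pre_step 2 tabB2 2128 16 (preB2_132) ckB2_133

theorem preB2_134 : Pre 2 tabB2 2160 := pre_step 2 tabB2 2144 16 (preB2_133) ckB2_134

theorem preB2_135 : Pre 2 tabB2 2176 := pre_step 2 tabB2 2160 16 (preB2_134) ckB2_135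

theorem preB2_136 : Pre 2 tabB2 2192 := pre_step 2 tabB2 2176 16 (preB2_135) ckB2_136

theorem preB2_137 : Pre 2 tabB2 2208 := pre_step 2 tabB2 2192 16 (preB2_136) ckB2_137

theorem preB2_138 : Pre 2 tabB2 2224 := pre_step 2 tabB2 2208 16 (preB2_137) ckB2_138

theorem preB2_139 : Pre 2 tabB2 2240 := pre_step 2 tabB2 2224 16 (preB2_138) ckB2_139

theorem preB2_140 : Pre 2 tabB2 2256 := pre_step 2 tabB2 2240 16 (preB2_139) ckB2_140

theorem preB2_141 : Pre 2 tabB2 2272 := pre_step 2 tabB2 2256 16 (preB2_140) ckB2_141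

theorem preB2_142 : Pre 2 tabB2 2288 := pre_step 2 tabB2 2272 16 (preB2_141) ckB2_142

theorem preB2_143 : Pre 2 tabB2 2304 := pre_step 2 tabB2 2288 16 (preB2_142) ckB2_143

theorem preB2_144 : Pre 2 tabB2 2320 := pre_step 2 tabB2 2304 16 (preB2_143) ckB2_144

theorem preB2_145 : Pre 2 tabB2 2336 := pre_step 2 tabB2 2320 16 (preB2_144) ckB2_145

theorem preB2_146 : Pre 2 tabB2 2352 := pre_step 2 tabB2 2336 16 (preB2_145) ckB2_146

theorem preB2_147 : Pre 2 tabB2 2368 := pre_step 2 tabB2 2352 16 (preB2_146) ckB2_147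

theorem preB2_148 : Pre 2 tabB2 2384 := pre_step 2 tabB2 2368 16 (preB2_147) ckB2_148

theorem preB2_149 : Pre 2 tabB2 2400 := pre_step 2 tabB2 2384 16 (preB2_148) ckB2_149

theorem preB2_150 : Pre 2 tabB2 2416 := pre_step 2 tabB2 2400 16 (preB2_149) ckB2_150

theorem preB2_151 : Pre 2 tabB2 2432 := pre_step 2 tabB2 2416 16 (preB2_150) ckB2_151

theorem preB2_152 : Pre 2 tabB2 2448 := pre_step 2 tabB2 2432 16 (preB2_151) ckB2_152

theorem preB2_153 : Pre 2 tabB2 2464 := pre_step 2 tabB2 2448 16 (preB2_152) ckB2_153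

theorem preB2_154 : Pre 2 tabB2 2480 := pre_step 2 tabB2 2464 16 (preB2_153) ckB2_154

theorem preB2_155 : Pre 2 tabB2 2496 := pre_step 2 tabB2 2480 16 (preB2_154) ckB2_155

theorem preB2_156 : Pre 2 tabB2 2512 := pre_step 2 tabB2 2496 16 (preB2_155) ckB2_156

theorem preB2_157 : Pre 2 tabB2 2528 := pre_step 2 tabB2 2512 16 (preB2_156) ckB2_157

theorem preB2_158 : Pre 2 tabB2 2544 := pre_step 2 tabB2 2528 16 (preB2_157) ckB2_158

theorem preB2_159 : Pre 2 tabB2 2560 := pre_step 2 tabB2 2544 16 (preB2_158) ckB2_159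

theorem preB2_160 : Pre 2 tabB2 2576 := pre_step 2 tabB2 2560 16 (preB2_159) ckB2_160

theorem preB2_161 : Pre 2 tabB2 2592 := pre_step 2 tabB2 2576 16 (preB2_160) ckB2_161

theorem preB2_162 : Pre 2 tabB2 2608 := pre_step 2 tabB2 2592 16 (preB2_161) ckB2_162

theorem preB2_163 : Pre 2 tabB2 2624 := pre_step 2 tabB2 2608 16 (preB2_162) ckB2_163

theorem preB2_164 : Pre 2 tabB2 2640 := pre_step 2 tabB2 2624 16 (preB2_163) ckB2_164

theorem preB2_165 : Pre 2 tabB2 2656 := pre_step 2 tabB2 2640 16 (preB2_164) ckB2_165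

theorem preB2_166 : Pre 2 tabB2 2672 := pre_step 2 tabB2 2656 16 (preB2_165) ckB2_166

theorem preB2_167 : Pre 2 tabB2 2688 := pre_step 2 tabB2 2672 16 (preB2_166) ckB2_167

theorem preB2_168 : Pre 2 tabB2 2704 := pre_step 2 tabB2 2688 16 (preB2_167) ckB2_168

theorem preB2_169 : Pre 2 tabB2 2720 := pre_step 2 tabB2 2704 16 (preB2_168) ckB2_169

theorem preB2_170 : Pre 2 tabB2 2736 := pre_step 2 tabB2 2720 16 (preB2_169) ckB2_170

theorem preB2_171 : Pre 2 tabB2 2752 := pre_step 2 tabB2 2736 16 (preB2_170) ckB2_171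

theorem preB2_172 : Pre 2 tabB2 2768 := pre_step 2 tabB2 2752 16 (preB2_171) ckB2_172

theorem preB2_173 : Pre 2 tabB2 2784 := pre_step 2 tabB2 2768 16 (preB2_172) ckB2_173

theorem preB2_174 : Pre 2 tabB2 2800 := pre_step 2 tabB2 2784 16 (preB2_173) ckB2_174

theorem preB2_175 : Pre 2 tabB2 2816 := pre_step 2 tabB2 2800 16 (preB2_174) ckB2_175

theorem preB2_176 : Pre 2 tabB2 2832 := pre_step 2 tabB2 2816 16 (preB2_175) ckB2_176

theorem preB2_177 : Pre 2 tabB2 2848 := pre_step 2 tabB2 2832 16 (preB2_176) ckB2_177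

theorem preB2_178 : Pre 2 tabB2 2864 := pre_step 2 tabB2 2848 16 (preB2_177) ckB2_178

theorem preB2_179 : Pre 2 tabB2 2880 := pre_step 2 tabB2 2864 16 (preB2_178) ckB2_179

theorem preB2_180 : Pre 2 tabB2 2896 := pre_step 2 tabB2 2880 16 (preB2_179) ckB2_180

theorem preB2_181 : Pre 2 tabB2 2912 := pre_step 2 tabB2 2896 16 (preB2_180) ckB2_181

theorem preB2_182 : Pre 2 tabB2 2928 := pre_step 2 tabB2 2912 16 (preB2_181) ckB2_182

theorem preB2_183 : Pre 2 tabB2 2944 := pre_step 2 tabB2 2928 16 (preB2_182) ckB2_183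

theorem preB2_184 : Pre 2 tabB2 2960 := pre_step 2 tabB2 2944 16 (preB2_183) ckB2_184

theorem preB2_185 : Pre 2 tabB2 2976 := pre_step 2 tabB2 2960 16 (preB2_184) ckB2_185

theorem preB2_186 : Pre 2 tabB2 2992 := pre_step 2 tabB2 2976 16 (preB2_185) ckB2_186

theorem preB2_187 : Pre 2 tabB2 3008 := pre_step 2 tabB2 2992 16 (preB2_186) ckB2_187

theorem preB2_188 : Pre 2 tabB2 3024 := pre_step 2 tabB2 3008 16 (preB2_187) ckB2_188

theorem preB2_189 : Pre 2 tabB2 3040 := pre_step 2 tabB2 3024 16 (preB2_188) ckB2_189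

theorem preB2_190 : Pre 2 tabB2 3056 := pre_step 2 tabB2 3040 16 (preB2_189) ckB2_190

theorem preB2_191 : Pre 2 tabB2 3072 := pre_step 2 tabB2 3056 16 (preB2_190) ckB2_191

theorem preB2_192 : Pre 2 tabB2 3088 := pre_step 2 tabB2 3072 16 (preB2_191) ckB2_192

theorem preB2_193 : Pre 2 tabB2 3104 := pre_step 2 tabB2 3088 16 (preB2_192) ckB2_193

theorem preB2_194 : Pre 2 tabB2 3120 := pre_step 2 tabB2 3104 16 (preB2_193) ckB2_194

theorem preB2_195 : Pre 2 tabB2 3136 := pre_step 2 tabB2 3120 16 (preB2_194) ckB2_195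

theorem preB2_196 : Pre 2 tabB2 3152 := pre_step 2 tabB2 3136 16 (preB2_195) ckB2_196

theorem preB2_197 : Pre 2 tabB2 3168 := pre_step 2 tabB2 3152 16 (preB2_196) ckB2_197

theorem preB2_198 : Pre 2 tabB2 3184 := pre_step 2 tabB2 3168 16 (preB2_197) ckB2_198

theorem preB2_199 : Pre 2 tabB2 3200 := pre_step 2 tabB2 3184 16 (preB2_198) ckB2_199

theorem preB2_200 : Pre 2 tabB2 3216 := pre_step 2 tabB2 3200 16 (preB2_199) ckB2_200

theorem preB2_201 : Pre 2 tabB2 3232 := pre_step 2 tabB2 3216 16 (preB2_200) ckB2_201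

theorem preB2_202 : Pre 2 tabB2 3248 := pre_step 2 tabB2 3232 16 (preB2_201) ckB2_202

theorem preB2_203 : Pre 2 tabB2 3264 := pre_step 2 tabB2 3248 16 (preB2_202) ckB2_203

theorem preB2_204 : Pre 2 tabB2 3280 := pre_step 2 tabB2 3264 16 (preB2_203) ckB2_204

theorem preB2_205 : Pre 2 tabB2 3296 := pre_step 2 tabB2 3280 16 (preB2_204) ckB2_205

theorem preB2_206 : Pre 2 tabB2 3312 := pre_step 2 tabB2 3296 16 (preB2_205) ckB2_206

theorem preB2_207 : Pre 2 tabB2 3328 := pre_step 2 tabB2 3312 16 (preB2_206) ckB2_207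

theorem preB2_208 : Pre 2 tabB2 3344 := pre_step 2 tabB2 3328 16 (preB2_207) ckB2_208

theorem preB2_209 : Pre 2 tabB2 3360 := pre_step 2 tabB2 3344 16 (preB2_208) ckB2_209

theorem preB2_210 : Pre 2 tabB2 3376 := pre_step 2 tabB2 3360 16 (preB2_209) ckB2_210

theorem preB2_211 : Pre 2 tabB2 3392 := pre_step 2 tabB2 3376 16 (preB2_210) ckB2_211

theorem preB2_212 : Pre 2 tabB2 3408 := pre_step 2 tabB2 3392 16 (preB2_211) ckB2_212

theorem preB2_213 : Pre 2 tabB2 3424 := pre_step 2 tabB2 3408 16 (preB2_212) ckB2_213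

theorem preB2_214 : Pre 2 tabB2 3440 := pre_step 2 tabB2 3424 16 (preB2_213) ckB2_214

theorem preB2_215 : Pre 2 tabB2 3456 := pre_step 2 tabB2 3440 16 (preB2_214) ckB2_215

theorem preB2_216 : Pre 2 tabB2 3472 := pre_step 2 tabB2 3456 16 (preB2_215) ckB2_216

theorem preB2_217 : Pre 2 tabB2 3488 := pre_step 2 tabB2 3472 16 (preB2_216) ckB2_217

theorem preB2_218 : Pre 2 tabB2 3504 := pre_step 2 tabB2 3488 16 (preB2_217) ckB2_218

theorem preB2_219 : Pre 2 tabB2 3520 := pre_step 2 tabB2 3504 16 (preB2_218) ckB2_219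

theorem preB2_220 : Pre 2 tabB2 3536 := pre_step 2 tabB2 3520 16 (preB2_219) ckB2_220

theorem preB2_221 : Pre 2 tabB2 3552 := pre_step 2 tabB2 3536 16 (preB2_220) ckB2_221

theorem preB2_222 : Pre 2 tabB2 3568 := pre_step 2 tabB2 3552 16 (preB2_221) ckB2_222

theorem preB2_223 : Pre 2 tabB2 3584 := pre_step 2 tabB2 3568 16 (preB2_222) ckB2_223

theorem preB2_224 : Pre 2 tabB2 3600 := pre_step 2 tabB2 3584 16 (preB2_223) ckB2_224

theorem preB2_225 : Pre 2 tabB2 3616 := pre_step 2 tabB2 3600 16 (preB2_224) ckB2_225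

theorem preB2_226 : Pre 2 tabB2 3632 := pre_step 2 tabB2 3616 16 (preB2_225) ckB2_226

theorem preB2_227 : Pre 2 tabB2 3648 := pre_step 2 tabB2 3632 16 (preB2_226) ckB2_227

theorem preB2_228 : Pre 2 tabB2 3664 := pre_step 2 tabB2 3648 16 (preB2_227) ckB2_228

theorem preB2_229 : Pre 2 tabB2 3680 := pre_step 2 tabB2 3664 16 (preB2_228) ckB2_229

theorem preB2_230 : Pre 2 tabB2 3696 := pre_step 2 tabB2 3680 16 (preB2_229) ckB2_230

theorem preB2_231 : Pre 2 tabB2 3712 := pre_step 2 tabB2 3696 16 (preB2_230) ckB2_231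

theorem preB2_232 : Pre 2 tabB2 3728 := pre_step 2 tabB2 3712 16 (preB2_231) ckB2_232

theorem preB2_233 : Pre 2 tabB2 3744 := pre_step 2 tabB2 3728 16 (preB2_232) ckB2_233

theorem preB2_234 : Pre 2 tabB2 3760 := pre_step 2 tabB2 3744 16 (preB2_233) ckB2_234

theorem preB2_235 : Pre 2 tabB2 3776 := pre_step 2 tabB2 3760 16 (preB2_234) ckB2_235

theorem preB2_236 : Pre 2 tabB2 3792 := pre_step 2 tabB2 3776 16 (preB2_235) ckB2_236

theorem preB2_237 : Pre 2 tabB2 3808 := pre_step 2 tabB2 3792 16 (preB2_236) ckB2_237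

theorem preB2_238 : Pre 2 tabB2 3824 := pre_step 2 tabB2 3808 16 (preB2_237) ckB2_238

theorem preB2_239 : Pre 2 tabB2 3840 := pre_step 2 tabB2 3824 16 (preB2_238) ckB2_239

theorem preB2_240 : Pre 2 tabB2 3856 := pre_step 2 tabB2 3840 16 (preB2_239) ckB2_240

theorem preB2_241 : Pre 2 tabB2 3872 := pre_step 2 tabB2 3856 16 (preB2_240) ckB2_241

theorem preB2_242 : Pre 2 tabB2 3888 := pre_step 2 tabB2 3872 16 (preB2_241) ckB2_242

theorem preB2_243 : Pre 2 tabB2 3904 := pre_step 2 tabB2 3888 16 (preB2_242) ckB2_243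

theorem preB2_244 : Pre 2 tabB2 3920 := pre_step 2 tabB2 3904 16 (preB2_243) ckB2_244

theorem preB2_245 : Pre 2 tabB2 3936 := pre_step 2 tabB2 3920 16 (preB2_244) ckB2_245

theorem preB2_246 : Pre 2 tabB2 3952 := pre_step 2 tabB2 3936 16 (preB2_245) ckB2_246

theorem preB2_247 : Pre 2 tabB2 3968 := pre_step 2 tabB2 3952 16 (preB2_246) ckB2_247

theorem preB2_248 : Pre 2 tabB2 3984 := pre_step 2 tabB2 3968 16 (preB2_247) ckB2_248

theorem preB2_249 : Pre 2 tabB2 4000 := pre_step 2 tabB2 3984 16 (preB2_248) ckB2_249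

theorem preB2_250 : Pre 2 tabB2 4016 := pre_step 2 tabB2 4000 16 (preB2_249) ckB2_250

theorem preB2_251 : Pre 2 tabB2 4032 := pre_step 2 tabB2 4016 16 (preB2_250) ckB2_251

theorem preB2_252 : Pre 2 tabB2 4048 := pre_step 2 tabB2 4032 16 (preB2_251) ckB2_252

theorem preB2_253 : Pre 2 tabB2 4064 := pre_step 2 tabB2 4048 16 (preB2_252) ckB2_253

theorem preB2_254 : Pre 2 tabB2 4080 := pre_step 2 tabB2 4064 16 (preB2_253) ckB2_254

theorem preB2_255 : Pre 2 tabB2 4096 := pre_step 2 tabB2 4080 16 (preB2_254) ckB2_255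

theorem preB2_256 : Pre 2 tabB2 4112 := pre_step 2 tabB2 4096 16 (preB2_255) ckB2_256

theorem preB2_257 : Pre 2 tabB2 4128 := pre_step 2 tabB2 4112 16 (preB2_256) ckB2_257

theorem preB2_258 : Pre 2 tabB2 4144 := pre_step 2 tabB2 4128 16 (preB2_257) ckB2_258

theorem preB2_259 : Pre 2 tabB2 4160 := pre_step 2 tabB2 4144 16 (preB2_258) ckB2_259

theorem preB2_260 : Pre 2 tabB2 4176 := pre_step 2 tabB2 4160 16 (preB2_259) ckB2_260

theorem preB2_261 : Pre 2 tabB2 4192 := pre_step 2 tabB2 4176 16 (preB2_260) ckB2_261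

theorem preB2_262 : Pre 2 tabB2 4208 := pre_step 2 tabB2 4192 16 (preB2_261) ckB2_262

theorem preB2_263 : Pre 2 tabB2 4224 := pre_step 2 tabB2 4208 16 (preB2_262) ckB2_263

theorem preB2_264 : Pre 2 tabB2 4240 := pre_step 2 tabB2 4224 16 (preB2_263) ckB2_264

theorem preB2_265 : Pre 2 tabB2 4256 := pre_step 2 tabB2 4240 16 (preB2_264) ckB2_265

theorem preB2_266 : Pre 2 tabB2 4272 := pre_step 2 tabB2 4256 16 (preB2_265) ckB2_266

theorem preB2_267 : Pre 2 tabB2 4288 := pre_step 2 tabB2 4272 16 (preB2_266) ckB2_267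

theorem preB2_268 : Pre 2 tabB2 4304 := pre_step 2 tabB2 4288 16 (preB2_267) ckB2_268

theorem preB2_269 : Pre 2 tabB2 4320 := pre_step 2 tabB2 4304 16 (preB2_268) ckB2_269

theorem preB2_270 : Pre 2 tabB2 4336 := pre_step 2 tabB2 4320 16 (preB2_269) ckB2_270

theorem preB2_271 : Pre 2 tabB2 4352 := pre_step 2 tabB2 4336 16 (preB2_270) ckB2_271

theorem preB2_272 : Pre 2 tabB2 4368 := pre_step 2 tabB2 4352 16 (preB2_271) ckB2_272

theorem preB2_273 : Pre 2 tabB2 4384 := pre_step 2 tabB2 4368 16 (preB2_272) ckB2_273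

theorem preB2_274 : Pre 2 tabB2 4400 := pre_step 2 tabB2 4384 16 (preB2_273) ckB2_274

theorem preB2_275 : Pre 2 tabB2 4416 := pre_step 2 tabB2 4400 16 (preB2_274) ckB2_275

theorem preB2_276 : Pre 2 tabB2 4432 := pre_step 2 tabB2 4416 16 (preB2_275) ckB2_276

theorem preB2_277 : Pre 2 tabB2 4448 := pre_step 2 tabB2 4432 16 (preB2_276) ckB2_277

theorem preB2_278 : Pre 2 tabB2 4464 := pre_step 2 tabB2 4448 16 (preB2_277) ckB2_278

theorem preB2_279 : Pre 2 tabB2 4480 := pre_step 2 tabB2 4464 16 (preB2_278) ckB2_279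

theorem preB2_280 : Pre 2 tabB2 4496 := pre_step 2 tabB2 4480 16 (preB2_279) ckB2_280

theorem preB2_281 : Pre 2 tabB2 4512 := pre_step 2 tabB2 4496 16 (preB2_280) ckB2_281

theorem preB2_282 : Pre 2 tabB2 4528 := pre_step 2 tabB2 4512 16 (preB2_281) ckB2_282

theorem preB2_283 : Pre 2 tabB2 4544 := pre_step 2 tabB2 4528 16 (preB2_282) ckB2_283

theorem preB2_284 : Pre 2 tabB2 4560 := pre_step 2 tabB2 4544 16 (preB2_283) ckB2_284

theorem preB2_285 : Pre 2 tabB2 4576 := pre_step 2 tabB2 4560 16 (preB2_284) ckB2_285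

theorem preB2_286 : Pre 2 tabB2 4592 := pre_step 2 tabB2 4576 16 (preB2_285) ckB2_286

theorem preB2_287 : Pre 2 tabB2 4608 := pre_step 2 tabB2 4592 16 (preB2_286) ckB2_287

theorem preB2_288 : Pre 2 tabB2 4624 := pre_step 2 tabB2 4608 16 (preB2_287) ckB2_288

theorem preB2_289 : Pre 2 tabB2 4640 := pre_step 2 tabB2 4624 16 (preB2_288) ckB2_289

theorem preB2_290 : Pre 2 tabB2 4656 := pre_step 2 tabB2 4640 16 (preB2_289) ckB2_290

theorem preB2_291 : Pre 2 tabB2 4672 := pre_step 2 tabB2 4656 16 (preB2_290) ckB2_291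

theorem preB2_292 : Pre 2 tabB2 4688 := pre_step 2 tabB2 4672 16 (preB2_291) ckB2_292

theorem preB2_293 : Pre 2 tabB2 4704 := pre_step 2 tabB2 4688 16 (preB2_292) ckB2_293

theorem preB2_294 : Pre 2 tabB2 4720 := pre_step 2 tabB2 4704 16 (preB2_293) ckB2_294

theorem preB2_295 : Pre 2 tabB2 4736 := pre_step 2 tabB2 4720 16 (preB2_294) ckB2_295

theorem preB2_296 : Pre 2 tabB2 4752 := pre_step 2 tabB2 4736 16 (preB2_295) ckB2_296

theorem preB2_297 : Pre 2 tabB2 4768 := pre_step 2 tabB2 4752 16 (preB2_296) ckB2_297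

theorem preB2_298 : Pre 2 tabB2 4784 := pre_step 2 tabB2 4768 16 (preB2_297) ckB2_298

theorem preB2_299 : Pre 2 tabB2 4800 := pre_step 2 tabB2 4784 16 (preB2_298) ckB2_299

theorem preB2_300 : Pre 2 tabB2 4816 := pre_step 2 tabB2 4800 16 (preB2_299) ckB2_300

theorem preB2_301 : Pre 2 tabB2 4832 := pre_step 2 tabB2 4816 16 (preB2_300) ckB2_301

theorem preB2_302 : Pre 2 tabB2 4848 := pre_step 2 tabB2 4832 16 (preB2_301) ckB2_302

theorem preB2_303 : Pre 2 tabB2 4864 := pre_step 2 tabB2 4848 16 (preB2_302) ckB2_303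

theorem preB2_304 : Pre 2 tabB2 4880 := pre_step 2 tabB2 4864 16 (preB2_303) ckB2_304

theorem preB2_305 : Pre 2 tabB2 4896 := pre_step 2 tabB2 4880 16 (preB2_304) ckB2_305

theorem preB2_306 : Pre 2 tabB2 4912 := pre_step 2 tabB2 4896 16 (preB2_305) ckB2_306

theorem preB2_307 : Pre 2 tabB2 4928 := pre_step 2 tabB2 4912 16 (preB2_306) ckB2_307

theorem preB2_308 : Pre 2 tabB2 4944 := pre_step 2 tabB2 4928 16 (preB2_307) ckB2_308

theorem preB2_309 : Pre 2 tabB2 4960 := pre_step 2 tabB2 4944 16 (preB2_308) ckB2_309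

theorem preB2_310 : Pre 2 tabB2 4976 := pre_step 2 tabB2 4960 16 (preB2_309) ckB2_310

theorem preB2_311 : Pre 2 tabB2 4992 := pre_step 2 tabB2 4976 16 (preB2_310) ckB2_311

theorem preB2_312 : Pre 2 tabB2 5008 := pre_step 2 tabB2 4992 16 (preB2_311) ckB2_312

theorem preB2_313 : Pre 2 tabB2 5024 := pre_step 2 tabB2 5008 16 (preB2_312) ckB2_313

theorem preB2_314 : Pre 2 tabB2 5040 := pre_step 2 tabB2 5024 16 (preB2_313) ckB2_314

theorem preB2_315 : Pre 2 tabB2 5056 := pre_step 2 tabB2 5040 16 (preB2_314) ckB2_315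

theorem preB2_316 : Pre 2 tabB2 5072 := pre_step 2 tabB2 5056 16 (preB2_315) ckB2_316

theorem preB2_317 : Pre 2 tabB2 5088 := pre_step 2 tabB2 5072 16 (preB2_316) ckB2_317

theorem preB2_318 : Pre 2 tabB2 5104 := pre_step 2 tabB2 5088 16 (preB2_317) ckB2_318

theorem preB2_319 : Pre 2 tabB2 5120 := pre_step 2 tabB2 5104 16 (preB2_318) ckB2_319

theorem preB2_320 : Pre 2 tabB2 5136 := pre_step 2 tabB2 5120 16 (preB2_319) ckB2_320

theorem preB2_321 : Pre 2 tabB2 5152 := pre_step 2 tabB2 5136 16 (preB2_320) ckB2_321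

theorem preB2_322 : Pre 2 tabB2 5168 := pre_step 2 tabB2 5152 16 (preB2_321) ckB2_322

theorem preB2_323 : Pre 2 tabB2 5184 := pre_step 2 tabB2 5168 16 (preB2_322) ckB2_323

theorem preB2_324 : Pre 2 tabB2 5200 := pre_step 2 tabB2 5184 16 (preB2_323) ckB2_324

theorem preB2_325 : Pre 2 tabB2 5216 := pre_step 2 tabB2 5200 16 (preB2_324) ckB2_325

theorem preB2_326 : Pre 2 tabB2 5232 := pre_step 2 tabB2 5216 16 (preB2_325) ckB2_326

theorem preB2_327 : Pre 2 tabB2 5248 := pre_step 2 tabB2 5232 16 (preB2_326) ckB2_327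

theorem preB2_328 : Pre 2 tabB2 5264 := pre_step 2 tabB2 5248 16 (preB2_327) ckB2_328

theorem preB2_329 : Pre 2 tabB2 5280 := pre_step 2 tabB2 5264 16 (preB2_328) ckB2_329

theorem preB2_330 : Pre 2 tabB2 5296 := pre_step 2 tabB2 5280 16 (preB2_329) ckB2_330

theorem preB2_331 : Pre 2 tabB2 5312 := pre_step 2 tabB2 5296 16 (preB2_330) ckB2_331

theorem preB2_332 : Pre 2 tabB2 5328 := pre_step 2 tabB2 5312 16 (preB2_331) ckB2_332

theorem preB2_333 : Pre 2 tabB2 5344 := pre_step 2 tabB2 5328 16 (preB2_332) ckB2_333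

theorem preB2_334 : Pre 2 tabB2 5360 := pre_step 2 tabB2 5344 16 (preB2_333) ckB2_334

theorem preB2_335 : Pre 2 tabB2 5376 := pre_step 2 tabB2 5360 16 (preB2_334) ckB2_335

theorem preB2_336 : Pre 2 tabB2 5392 := pre_step 2 tabB2 5376 16 (preB2_335) ckB2_336

theorem preB2_337 : Pre 2 tabB2 5408 := pre_step 2 tabB2 5392 16 (preB2_336) ckB2_337

theorem preB2_338 : Pre 2 tabB2 5424 := pre_step 2 tabB2 5408 16 (preB2_337) ckB2_338

theorem preB2_339 : Pre 2 tabB2 5440 := pre_step 2 tabB2 5424 16 (preB2_338) ckB2_339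

theorem preB2_340 : Pre 2 tabB2 5456 := pre_step 2 tabB2 5440 16 (preB2_339) ckB2_340

theorem preB2_341 : Pre 2 tabB2 5472 := pre_step 2 tabB2 5456 16 (preB2_340) ckB2_341

theorem preB2_342 : Pre 2 tabB2 5488 := pre_step 2 tabB2 5472 16 (preB2_341) ckB2_342

theorem preB2_343 : Pre 2 tabB2 5504 := pre_step 2 tabB2 5488 16 (preB2_342) ckB2_343

theorem preB2_344 : Pre 2 tabB2 5520 := pre_step 2 tabB2 5504 16 (preB2_343) ckB2_344

theorem preB2_345 : Pre 2 tabB2 5536 := pre_step 2 tabB2 5520 16 (preB2_344) ckB2_345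

theorem preB2_346 : Pre 2 tabB2 5552 := pre_step 2 tabB2 5536 16 (preB2_345) ckB2_346

theorem preB2_347 : Pre 2 tabB2 5568 := pre_step 2 tabB2 5552 16 (preB2_346) ckB2_347

theorem preB2_348 : Pre 2 tabB2 5584 := pre_step 2 tabB2 5568 16 (preB2_347) ckB2_348

theorem preB2_349 : Pre 2 tabB2 5600 := pre_step 2 tabB2 5584 16 (preB2_348) ckB2_349

theorem preB2_350 : Pre 2 tabB2 5616 := pre_step 2 tabB2 5600 16 (preB2_349) ckB2_350

theorem preB2_351 : Pre 2 tabB2 5632 := pre_step 2 tabB2 5616 16 (preB2_350) ckB2_351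

theorem preB2_352 : Pre 2 tabB2 5648 := pre_step 2 tabB2 5632 16 (preB2_351) ckB2_352

theorem preB2_353 : Pre 2 tabB2 5664 := pre_step 2 tabB2 5648 16 (preB2_352) ckB2_353

theorem preB2_354 : Pre 2 tabB2 5680 := pre_step 2 tabB2 5664 16 (preB2_353) ckB2_354

theorem preB2_355 : Pre 2 tabB2 5696 := pre_step 2 tabB2 5680 16 (preB2_354) ckB2_355

theorem preB2_356 : Pre 2 tabB2 5712 := pre_step 2 tabB2 5696 16 (preB2_355) ckB2_356

theorem preB2_357 : Pre 2 tabB2 5728 := pre_step 2 tabB2 5712 16 (preB2_356) ckB2_357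

theorem preB2_358 : Pre 2 tabB2 5744 := pre_step 2 tabB2 5728 16 (preB2_357) ckB2_358

theorem preB2_359 : Pre 2 tabB2 5760 := pre_step 2 tabB2 5744 16 (preB2_358) ckB2_359

theorem preB2_360 : Pre 2 tabB2 5776 := pre_step 2 tabB2 5760 16 (preB2_359) ckB2_360

theorem preB2_361 : Pre 2 tabB2 5792 := pre_step 2 tabB2 5776 16 (preB2_360) ckB2_361

theorem preB2_362 : Pre 2 tabB2 5808 := pre_step 2 tabB2 5792 16 (preB2_361) ckB2_362

theorem preB2_363 : Pre 2 tabB2 5824 := pre_step 2 tabB2 5808 16 (preB2_362) ckB2_363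

theorem preB2_364 : Pre 2 tabB2 5840 := pre_step 2 tabB2 5824 16 (preB2_363) ckB2_364

theorem preB2_365 : Pre 2 tabB2 5856 := pre_step 2 tabB2 5840 16 (preB2_364) ckB2_365

theorem preB2_366 : Pre 2 tabB2 5872 := pre_step 2 tabB2 5856 16 (preB2_365) ckB2_366

theorem preB2_367 : Pre 2 tabB2 5888 := pre_step 2 tabB2 5872 16 (preB2_366) ckB2_367

theorem preB2_368 : Pre 2 tabB2 5904 := pre_step 2 tabB2 5888 16 (preB2_367) ckB2_368

theorem preB2_369 : Pre 2 tabB2 5920 := pre_step 2 tabB2 5904 16 (preB2_368) ckB2_369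

theorem preB2_370 : Pre 2 tabB2 5936 := pre_step 2 tabB2 5920 16 (preB2_369) ckB2_370

theorem preB2_371 : Pre 2 tabB2 5952 := pre_step 2 tabB2 5936 16 (preB2_370) ckB2_371

theorem preB2_372 : Pre 2 tabB2 5968 := pre_step 2 tabB2 5952 16 (preB2_371) ckB2_372

theorem preB2_373 : Pre 2 tabB2 5984 := pre_step 2 tabB2 5968 16 (preB2_372) ckB2_373

theorem preB2_374 : Pre 2 tabB2 6000 := pre_step 2 tabB2 5984 16 (preB2_373) ckB2_374

theorem preB2_375 : Pre 2 tabB2 6016 := pre_step 2 tabB2 6000 16 (preB2_374) ckB2_375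

theorem preB2_376 : Pre 2 tabB2 6032 := pre_step 2 tabB2 6016 16 (preB2_375) ckB2_376

theorem preB2_377 : Pre 2 tabB2 6048 := pre_step 2 tabB2 6032 16 (preB2_376) ckB2_377

theorem preB2_378 : Pre 2 tabB2 6064 := pre_step 2 tabB2 6048 16 (preB2_377) ckB2_378

theorem preB2_379 : Pre 2 tabB2 6080 := pre_step 2 tabB2 6064 16 (preB2_378) ckB2_379

theorem preB2_380 : Pre 2 tabB2 6096 := pre_step 2 tabB2 6080 16 (preB2_379) ckB2_380

theorem preB2_381 : Pre 2 tabB2 6112 := pre_step 2 tabB2 6096 16 (preB2_380) ckB2_381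

theorem preB2_382 : Pre 2 tabB2 6128 := pre_step 2 tabB2 6112 16 (preB2_381) ckB2_382

theorem preB2_383 : Pre 2 tabB2 6144 := pre_step 2 tabB2 6128 16 (preB2_382) ckB2_383

theorem preB2_384 : Pre 2 tabB2 6160 := pre_step 2 tabB2 6144 16 (preB2_383) ckB2_384

theorem preB2_385 : Pre 2 tabB2 6176 := pre_step 2 tabB2 6160 16 (preB2_384) ckB2_385

theorem preB2_386 : Pre 2 tabB2 6192 := pre_step 2 tabB2 6176 16 (preB2_385) ckB2_386

theorem preB2_387 : Pre 2 tabB2 6208 := pre_step 2 tabB2 6192 16 (preB2_386) ckB2_387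

theorem preB2_388 : Pre 2 tabB2 6224 := pre_step 2 tabB2 6208 16 (preB2_387) ckB2_388

theorem preB2_389 : Pre 2 tabB2 6240 := pre_step 2 tabB2 6224 16 (preB2_388) ckB2_389

theorem preB2_390 : Pre 2 tabB2 6256 := pre_step 2 tabB2 6240 16 (preB2_389) ckB2_390

theorem preB2_391 : Pre 2 tabB2 6272 := pre_step 2 tabB2 6256 16 (preB2_390) ckB2_391

theorem preB2_392 : Pre 2 tabB2 6288 := pre_step 2 tabB2 6272 16 (preB2_391) ckB2_392

theorem preB2_393 : Pre 2 tabB2 6304 := pre_step 2 tabB2 6288 16 (preB2_392) ckB2_393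

theorem preB2_394 : Pre 2 tabB2 6320 := pre_step 2 tabB2 6304 16 (preB2_393) ckB2_394

theorem preB2_395 : Pre 2 tabB2 6336 := pre_step 2 tabB2 6320 16 (preB2_394) ckB2_395

theorem preB2_396 : Pre 2 tabB2 6352 := pre_step 2 tabB2 6336 16 (preB2_395) ckB2_396

theorem preB2_397 : Pre 2 tabB2 6368 := pre_step 2 tabB2 6352 16 (preB2_396) ckB2_397

theorem preB2_398 : Pre 2 tabB2 6384 := pre_step 2 tabB2 6368 16 (preB2_397) ckB2_398

theorem preB2_399 : Pre 2 tabB2 6400 := pre_step 2 tabB2 6384 16 (preB2_398) ckB2_399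

theorem preB2_400 : Pre 2 tabB2 6416 := pre_step 2 tabB2 6400 16 (preB2_399) ckB2_400

theorem preB2_401 : Pre 2 tabB2 6432 := pre_step 2 tabB2 6416 16 (preB2_400) ckB2_401

theorem preB2_402 : Pre 2 tabB2 6448 := pre_step 2 tabB2 6432 16 (preB2_401) ckB2_402

theorem preB2_403 : Pre 2 tabB2 6464 := pre_step 2 tabB2 6448 16 (preB2_402) ckB2_403

theorem preB2_404 : Pre 2 tabB2 6480 := pre_step 2 tabB2 6464 16 (preB2_403) ckB2_404

theorem preB2_405 : Pre 2 tabB2 6496 := pre_step 2 tabB2 6480 16 (preB2_404) ckB2_405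

theorem preB2_406 : Pre 2 tabB2 6512 := pre_step 2 tabB2 6496 16 (preB2_405) ckB2_406

theorem preB2_407 : Pre 2 tabB2 6528 := pre_step 2 tabB2 6512 16 (preB2_406) ckB2_407

theorem preB2_408 : Pre 2 tabB2 6544 := pre_step 2 tabB2 6528 16 (preB2_407) ckB2_408

theorem preB2_409 : Pre 2 tabB2 6560 := pre_step 2 tabB2 6544 16 (preB2_408) ckB2_409

theorem preB2_410 : Pre 2 tabB2 6576 := pre_step 2 tabB2 6560 16 (preB2_409) ckB2_410

theorem preB2_411 : Pre 2 tabB2 6592 := pre_step 2 tabB2 6576 16 (preB2_410) ckB2_411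

theorem preB2_412 : Pre 2 tabB2 6608 := pre_step 2 tabB2 6592 16 (preB2_411) ckB2_412

theorem preB2_413 : Pre 2 tabB2 6624 := pre_step 2 tabB2 6608 16 (preB2_412) ckB2_413

theorem preB2_414 : Pre 2 tabB2 6640 := pre_step 2 tabB2 6624 16 (preB2_413) ckB2_414

theorem preB2_415 : Pre 2 tabB2 6656 := pre_step 2 tabB2 6640 16 (preB2_414) ckB2_415

theorem preB2_416 : Pre 2 tabB2 6672 := pre_step 2 tabB2 6656 16 (preB2_415) ckB2_416

theorem preB2_417 : Pre 2 tabB2 6688 := pre_step 2 tabB2 6672 16 (preB2_416) ckB2_417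

theorem preB2_418 : Pre 2 tabB2 6704 := pre_step 2 tabB2 6688 16 (preB2_417) ckB2_418

theorem preB2_419 : Pre 2 tabB2 6720 := pre_step 2 tabB2 6704 16 (preB2_418) ckB2_419

theorem preB2_420 : Pre 2 tabB2 6736 := pre_step 2 tabB2 6720 16 (preB2_419) ckB2_420

theorem preB2_421 : Pre 2 tabB2 6752 := pre_step 2 tabB2 6736 16 (preB2_420) ckB2_421

theorem preB2_422 : Pre 2 tabB2 6768 := pre_step 2 tabB2 6752 16 (preB2_421) ckB2_422

theorem preB2_423 : Pre 2 tabB2 6784 := pre_step 2 tabB2 6768 16 (preB2_422) ckB2_423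

theorem preB2_424 : Pre 2 tabB2 6800 := pre_step 2 tabB2 6784 16 (preB2_423) ckB2_424

theorem preB2_425 : Pre 2 tabB2 6816 := pre_step 2 tabB2 6800 16 (preB2_424) ckB2_425

theorem preB2_426 : Pre 2 tabB2 6832 := pre_step 2 tabB2 6816 16 (preB2_425) ckB2_426

theorem preB2_427 : Pre 2 tabB2 6848 := pre_step 2 tabB2 6832 16 (preB2_426) ckB2_427

theorem preB2_428 : Pre 2 tabB2 6864 := pre_step 2 tabB2 6848 16 (preB2_427) ckB2_428

theorem preB2_429 : Pre 2 tabB2 6880 := pre_step 2 tabB2 6864 16 (preB2_428) ckB2_429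

theorem preB2_430 : Pre 2 tabB2 6896 := pre_step 2 tabB2 6880 16 (preB2_429) ckB2_430

theorem preB2_431 : Pre 2 tabB2 6912 := pre_step 2 tabB2 6896 16 (preB2_430) ckB2_431

theorem preB2_432 : Pre 2 tabB2 6928 := pre_step 2 tabB2 6912 16 (preB2_431) ckB2_432

theorem preB2_433 : Pre 2 tabB2 6944 := pre_step 2 tabB2 6928 16 (preB2_432) ckB2_433

theorem preB2_434 : Pre 2 tabB2 6960 := pre_step 2 tabB2 6944 16 (preB2_433) ckB2_434

theorem preB2_435 : Pre 2 tabB2 6976 := pre_step 2 tabB2 6960 16 (preB2_434) ckB2_435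

theorem preB2_436 : Pre 2 tabB2 6992 := pre_step 2 tabB2 6976 16 (preB2_435) ckB2_436

theorem preB2_437 : Pre 2 tabB2 7008 := pre_step 2 tabB2 6992 16 (preB2_436) ckB2_437

theorem preB2_438 : Pre 2 tabB2 7024 := pre_step 2 tabB2 7008 16 (preB2_437) ckB2_438

theorem preB2_439 : Pre 2 tabB2 7040 := pre_step 2 tabB2 7024 16 (preB2_438) ckB2_439

theorem preB2_440 : Pre 2 tabB2 7056 := pre_step 2 tabB2 7040 16 (preB2_439) ckB2_440

theorem preB2_441 : Pre 2 tabB2 7072 := pre_step 2 tabB2 7056 16 (preB2_440) ckB2_441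

theorem preB2_442 : Pre 2 tabB2 7088 := pre_step 2 tabB2 7072 16 (preB2_441) ckB2_442

theorem preB2_443 : Pre 2 tabB2 7104 := pre_step 2 tabB2 7088 16 (preB2_442) ckB2_443

theorem preB2_444 : Pre 2 tabB2 7120 := pre_step 2 tabB2 7104 16 (preB2_443) ckB2_444

theorem preB2_445 : Pre 2 tabB2 7136 := pre_step 2 tabB2 7120 16 (preB2_444) ckB2_445

theorem preB2_446 : Pre 2 tabB2 7152 := pre_step 2 tabB2 7136 16 (preB2_445) ckB2_446

theorem preB2_447 : Pre 2 tabB2 7168 := pre_step 2 tabB2 7152 16 (preB2_446) ckB2_447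

theorem preB2_448 : Pre 2 tabB2 7184 := pre_step 2 tabB2 7168 16 (preB2_447) ckB2_448

theorem preB2_449 : Pre 2 tabB2 7200 := pre_step 2 tabB2 7184 16 (preB2_448) ckB2_449

theorem preB2_450 : Pre 2 tabB2 7216 := pre_step 2 tabB2 7200 16 (preB2_449) ckB2_450

theorem preB2_451 : Pre 2 tabB2 7232 := pre_step 2 tabB2 7216 16 (preB2_450) ckB2_451

theorem preB2_452 : Pre 2 tabB2 7248 := pre_step 2 tabB2 7232 16 (preB2_451) ckB2_452

theorem preB2_453 : Pre 2 tabB2 7264 := pre_step 2 tabB2 7248 16 (preB2_452) ckB2_453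

theorem preB2_454 : Pre 2 tabB2 7280 := pre_step 2 tabB2 7264 16 (preB2_453) ckB2_454

theorem preB2_455 : Pre 2 tabB2 7296 := pre_step 2 tabB2 7280 16 (preB2_454) ckB2_455

theorem preB2_456 : Pre 2 tabB2 7312 := pre_step 2 tabB2 7296 16 (preB2_455) ckB2_456

theorem preB2_457 : Pre 2 tabB2 7328 := pre_step 2 tabB2 7312 16 (preB2_456) ckB2_457

theorem preB2_458 : Pre 2 tabB2 7344 := pre_step 2 tabB2 7328 16 (preB2_457) ckB2_458

theorem preB2_459 : Pre 2 tabB2 7360 := pre_step 2 tabB2 7344 16 (preB2_458) ckB2_459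

theorem preB2_460 : Pre 2 tabB2 7376 := pre_step 2 tabB2 7360 16 (preB2_459) ckB2_460

theorem preB2_461 : Pre 2 tabB2 7392 := pre_step 2 tabB2 7376 16 (preB2_460) ckB2_461

theorem preB2_462 : Pre 2 tabB2 7408 := pre_step 2 tabB2 7392 16 (preB2_461) ckB2_462

theorem preB2_463 : Pre 2 tabB2 7424 := pre_step 2 tabB2 7408 16 (preB2_462) ckB2_463

theorem preB2_464 : Pre 2 tabB2 7440 := pre_step 2 tabB2 7424 16 (preB2_463) ckB2_464

theorem preB2_465 : Pre 2 tabB2 7456 := pre_step 2 tabB2 7440 16 (preB2_464) ckB2_465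

theorem preB2_466 : Pre 2 tabB2 7472 := pre_step 2 tabB2 7456 16 (preB2_465) ckB2_466

theorem preB2_467 : Pre 2 tabB2 7488 := pre_step 2 tabB2 7472 16 (preB2_466) ckB2_467

theorem preB2_468 : Pre 2 tabB2 7504 := pre_step 2 tabB2 7488 16 (preB2_467) ckB2_468

theorem preB2_469 : Pre 2 tabB2 7520 := pre_step 2 tabB2 7504 16 (preB2_468) ckB2_469

theorem preB2_470 : Pre 2 tabB2 7536 := pre_step 2 tabB2 7520 16 (preB2_469) ckB2_470

theorem preB2_471 : Pre 2 tabB2 7552 := pre_step 2 tabB2 7536 16 (preB2_470) ckB2_471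

theorem preB2_472 : Pre 2 tabB2 7568 := pre_step 2 tabB2 7552 16 (preB2_471) ckB2_472

theorem preB2_473 : Pre 2 tabB2 7584 := pre_step 2 tabB2 7568 16 (preB2_472) ckB2_473

theorem preB2_474 : Pre 2 tabB2 7600 := pre_step 2 tabB2 7584 16 (preB2_473) ckB2_474

theorem preB2_475 : Pre 2 tabB2 7616 := pre_step 2 tabB2 7600 16 (preB2_474) ckB2_475

theorem preB2_476 : Pre 2 tabB2 7632 := pre_step 2 tabB2 7616 16 (preB2_475) ckB2_476

theorem preB2_477 : Pre 2 tabB2 7648 := pre_step 2 tabB2 7632 16 (preB2_476) ckB2_477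

theorem preB2_478 : Pre 2 tabB2 7664 := pre_step 2 tabB2 7648 16 (preB2_477) ckB2_478

theorem preB2_479 : Pre 2 tabB2 7680 := pre_step 2 tabB2 7664 16 (preB2_478) ckB2_479

theorem preB2_480 : Pre 2 tabB2 7696 := pre_step 2 tabB2 7680 16 (preB2_479) ckB2_480

theorem preB2_481 : Pre 2 tabB2 7712 := pre_step 2 tabB2 7696 16 (preB2_480) ckB2_481

theorem preB2_482 : Pre 2 tabB2 7728 := pre_step 2 tabB2 7712 16 (preB2_481) ckB2_482

theorem preB2_483 : Pre 2 tabB2 7744 := pre_step 2 tabB2 7728 16 (preB2_482) ckB2_483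

theorem preB2_484 : Pre 2 tabB2 7760 := pre_step 2 tabB2 7744 16 (preB2_483) ckB2_484

theorem preB2_485 : Pre 2 tabB2 7776 := pre_step 2 tabB2 7760 16 (preB2_484) ckB2_485

theorem preB2_486 : Pre 2 tabB2 7792 := pre_step 2 tabB2 7776 16 (preB2_485) ckB2_486

theorem preB2_487 : Pre 2 tabB2 7808 := pre_step 2 tabB2 7792 16 (preB2_486) ckB2_487

theorem preB2_488 : Pre 2 tabB2 7824 := pre_step 2 tabB2 7808 16 (preB2_487) ckB2_488

theorem preB2_489 : Pre 2 tabB2 7840 := pre_step 2 tabB2 7824 16 (preB2_488) ckB2_489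

theorem preB2_490 : Pre 2 tabB2 7856 := pre_step 2 tabB2 7840 16 (preB2_489) ckB2_490

theorem preB2_491 : Pre 2 tabB2 7872 := pre_step 2 tabB2 7856 16 (preB2_490) ckB2_491

theorem preB2_492 : Pre 2 tabB2 7888 := pre_step 2 tabB2 7872 16 (preB2_491) ckB2_492

theorem preB2_493 : Pre 2 tabB2 7904 := pre_step 2 tabB2 7888 16 (preB2_492) ckB2_493

theorem preB2_494 : Pre 2 tabB2 7920 := pre_step 2 tabB2 7904 16 (preB2_493) ckB2_494

theorem preB2_495 : Pre 2 tabB2 7936 := pre_step 2 tabB2 7920 16 (preB2_494) ckB2_495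

theorem preB2_496 : Pre 2 tabB2 7952 := pre_step 2 tabB2 7936 16 (preB2_495) ckB2_496

theorem preB2_497 : Pre 2 tabB2 7968 := pre_step 2 tabB2 7952 16 (preB2_496) ckB2_497

theorem preB2_498 : Pre 2 tabB2 7984 := pre_step 2 tabB2 7968 16 (preB2_497) ckB2_498

theorem preB2_499 : Pre 2 tabB2 8000 := pre_step 2 tabB2 7984 16 (preB2_498) ckB2_499

theorem preB2_500 : Pre 2 tabB2 8016 := pre_step 2 tabB2 8000 16 (preB2_499) ckB2_500

theorem preB2_501 : Pre 2 tabB2 8032 := pre_step 2 tabB2 8016 16 (preB2_500) ckB2_501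

theorem preB2_502 : Pre 2 tabB2 8048 := pre_step 2 tabB2 8032 16 (preB2_501) ckB2_502

theorem preB2_503 : Pre 2 tabB2 8064 := pre_step 2 tabB2 8048 16 (preB2_502) ckB2_503

theorem preB2_504 : Pre 2 tabB2 8080 := pre_step 2 tabB2 8064 16 (preB2_503) ckB2_504

theorem preB2_505 : Pre 2 tabB2 8096 := pre_step 2 tabB2 8080 16 (preB2_504) ckB2_505

theorem preB2_506 : Pre 2 tabB2 8112 := pre_step 2 tabB2 8096 16 (preB2_505) ckB2_506

theorem preB2_507 : Pre 2 tabB2 8128 := pre_step 2 tabB2 8112 16 (preB2_506) ckB2_507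

theorem preB2_508 : Pre 2 tabB2 8144 := pre_step 2 tabB2 8128 16 (preB2_507) ckB2_508

theorem preB2_509 : Pre 2 tabB2 8160 := pre_step 2 tabB2 8144 16 (preB2_508) ckB2_509

theorem preB2_510 : Pre 2 tabB2 8176 := pre_step 2 tabB2 8160 16 (preB2_509) ckB2_510

theorem preB2_511 : Pre 2 tabB2 8192 := pre_step 2 tabB2 8176 16 (preB2_510) ckB2_511

theorem preB2_512 : Pre 2 tabB2 8208 := pre_step 2 tabB2 8192 16 (preB2_511) ckB2_512

theorem preB2_513 : Pre 2 tabB2 8224 := pre_step 2 tabB2 8208 16 (preB2_512) ckB2_513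

theorem preB2_514 : Pre 2 tabB2 8240 := pre_step 2 tabB2 8224 16 (preB2_513) ckB2_514

theorem preB2_515 : Pre 2 tabB2 8256 := pre_step 2 tabB2 8240 16 (preB2_514) ckB2_515

theorem preB2_516 : Pre 2 tabB2 8272 := pre_step 2 tabB2 8256 16 (preB2_515) ckB2_516

theorem preB2_517 : Pre 2 tabB2 8288 := pre_step 2 tabB2 8272 16 (preB2_516) ckB2_517

theorem preB2_518 : Pre 2 tabB2 8304 := pre_step 2 tabB2 8288 16 (preB2_517) ckB2_518

theorem preB2_519 : Pre 2 tabB2 8320 := pre_step 2 tabB2 8304 16 (preB2_518) ckB2_519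

theorem preB2_520 : Pre 2 tabB2 8336 := pre_step 2 tabB2 8320 16 (preB2_519) ckB2_520

theorem preB2_521 : Pre 2 tabB2 8352 := pre_step 2 tabB2 8336 16 (preB2_520) ckB2_521

theorem preB2_522 : Pre 2 tabB2 8368 := pre_step 2 tabB2 8352 16 (preB2_521) ckB2_522

theorem preB2_523 : Pre 2 tabB2 8384 := pre_step 2 tabB2 8368 16 (preB2_522) ckB2_523

theorem preB2_524 : Pre 2 tabB2 8400 := pre_step 2 tabB2 8384 16 (preB2_523) ckB2_524

theorem preB2_525 : Pre 2 tabB2 8416 := pre_step 2 tabB2 8400 16 (preB2_524) ckB2_525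

theorem preB2_526 : Pre 2 tabB2 8432 := pre_step 2 tabB2 8416 16 (preB2_525) ckB2_526

theorem preB2_527 : Pre 2 tabB2 8448 := pre_step 2 tabB2 8432 16 (preB2_526) ckB2_527

theorem preB2_528 : Pre 2 tabB2 8464 := pre_step 2 tabB2 8448 16 (preB2_527) ckB2_528

theorem preB2_529 : Pre 2 tabB2 8480 := pre_step 2 tabB2 8464 16 (preB2_528) ckB2_529

theorem preB2_530 : Pre 2 tabB2 8496 := pre_step 2 tabB2 8480 16 (preB2_529) ckB2_530

theorem preB2_531 : Pre 2 tabB2 8512 := pre_step 2 tabB2 8496 16 (preB2_530) ckB2_531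

theorem preB2_532 : Pre 2 tabB2 8528 := pre_step 2 tabB2 8512 16 (preB2_531) ckB2_532

theorem preB2_533 : Pre 2 tabB2 8544 := pre_step 2 tabB2 8528 16 (preB2_532) ckB2_533

theorem preB2_534 : Pre 2 tabB2 8560 := pre_step 2 tabB2 8544 16 (preB2_533) ckB2_534

theorem preB2_535 : Pre 2 tabB2 8576 := pre_step 2 tabB2 8560 16 (preB2_534) ckB2_535

theorem preB2_536 : Pre 2 tabB2 8592 := pre_step 2 tabB2 8576 16 (preB2_535) ckB2_536

theorem preB2_537 : Pre 2 tabB2 8608 := pre_step 2 tabB2 8592 16 (preB2_536) ckB2_537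

theorem preB2_538 : Pre 2 tabB2 8624 := pre_step 2 tabB2 8608 16 (preB2_537) ckB2_538

theorem preB2_539 : Pre 2 tabB2 8640 := pre_step 2 tabB2 8624 16 (preB2_538) ckB2_539

theorem preB2_540 : Pre 2 tabB2 8656 := pre_step 2 tabB2 8640 16 (preB2_539) ckB2_540

theorem preB2_541 : Pre 2 tabB2 8672 := pre_step 2 tabB2 8656 16 (preB2_540) ckB2_541

theorem preB2_542 : Pre 2 tabB2 8688 := pre_step 2 tabB2 8672 16 (preB2_541) ckB2_542

theorem preB2_543 : Pre 2 tabB2 8704 := pre_step 2 tabB2 8688 16 (preB2_542) ckB2_543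

theorem preB2_544 : Pre 2 tabB2 8720 := pre_step 2 tabB2 8704 16 (preB2_543) ckB2_544

theorem preB2_545 : Pre 2 tabB2 8736 := pre_step 2 tabB2 8720 16 (preB2_544) ckB2_545

theorem preB2_546 : Pre 2 tabB2 8752 := pre_step 2 tabB2 8736 16 (preB2_545) ckB2_546

theorem preB2_547 : Pre 2 tabB2 8768 := pre_step 2 tabB2 8752 16 (preB2_546) ckB2_547

theorem preB2_548 : Pre 2 tabB2 8784 := pre_step 2 tabB2 8768 16 (preB2_547) ckB2_548

theorem preB2_549 : Pre 2 tabB2 8800 := pre_step 2 tabB2 8784 16 (preB2_548) ckB2_549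

theorem preB2_550 : Pre 2 tabB2 8816 := pre_step 2 tabB2 8800 16 (preB2_549) ckB2_550

theorem preB2_551 : Pre 2 tabB2 8832 := pre_step 2 tabB2 8816 16 (preB2_550) ckB2_551

theorem preB2_552 : Pre 2 tabB2 8848 := pre_step 2 tabB2 8832 16 (preB2_551) ckB2_552

theorem preB2_553 : Pre 2 tabB2 8864 := pre_step 2 tabB2 8848 16 (preB2_552) ckB2_553

theorem preB2_554 : Pre 2 tabB2 8880 := pre_step 2 tabB2 8864 16 (preB2_553) ckB2_554

theorem preB2_555 : Pre 2 tabB2 8896 := pre_step 2 tabB2 8880 16 (preB2_554) ckB2_555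

theorem preB2_556 : Pre 2 tabB2 8912 := pre_step 2 tabB2 8896 16 (preB2_555) ckB2_556

theorem preB2_557 : Pre 2 tabB2 8928 := pre_step 2 tabB2 8912 16 (preB2_556) ckB2_557

theorem preB2_558 : Pre 2 tabB2 8944 := pre_step 2 tabB2 8928 16 (preB2_557) ckB2_558

theorem preB2_559 : Pre 2 tabB2 8960 := pre_step 2 tabB2 8944 16 (preB2_558) ckB2_559

theorem preB2_560 : Pre 2 tabB2 8976 := pre_step 2 tabB2 8960 16 (preB2_559) ckB2_560

theorem preB2_561 : Pre 2 tabB2 8992 := pre_step 2 tabB2 8976 16 (preB2_560) ckB2_561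

theorem preB2_562 : Pre 2 tabB2 9008 := pre_step 2 tabB2 8992 16 (preB2_561) ckB2_562

theorem preB2_563 : Pre 2 tabB2 9024 := pre_step 2 tabB2 9008 16 (preB2_562) ckB2_563

theorem preB2_564 : Pre 2 tabB2 9040 := pre_step 2 tabB2 9024 16 (preB2_563) ckB2_564

theorem preB2_565 : Pre 2 tabB2 9056 := pre_step 2 tabB2 9040 16 (preB2_564) ckB2_565

theorem preB2_566 : Pre 2 tabB2 9072 := pre_step 2 tabB2 9056 16 (preB2_565) ckB2_566

theorem preB2_567 : Pre 2 tabB2 9088 := pre_step 2 tabB2 9072 16 (preB2_566) ckB2_567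

theorem preB2_568 : Pre 2 tabB2 9104 := pre_step 2 tabB2 9088 16 (preB2_567) ckB2_568

theorem preB2_569 : Pre 2 tabB2 9120 := pre_step 2 tabB2 9104 16 (preB2_568) ckB2_569

theorem preB2_570 : Pre 2 tabB2 9136 := pre_step 2 tabB2 9120 16 (preB2_569) ckB2_570

theorem preB2_571 : Pre 2 tabB2 9152 := pre_step 2 tabB2 9136 16 (preB2_570) ckB2_571

theorem preB2_572 : Pre 2 tabB2 9168 := pre_step 2 tabB2 9152 16 (preB2_571) ckB2_572

theorem preB2_573 : Pre 2 tabB2 9184 := pre_step 2 tabB2 9168 16 (preB2_572) ckB2_573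

theorem preB2_574 : Pre 2 tabB2 9200 := pre_step 2 tabB2 9184 16 (preB2_573) ckB2_574

theorem preB2_575 : Pre 2 tabB2 9216 := pre_step 2 tabB2 9200 16 (preB2_574) ckB2_575

theorem preB2_576 : Pre 2 tabB2 9232 := pre_step 2 tabB2 9216 16 (preB2_575) ckB2_576

theorem preB2_577 : Pre 2 tabB2 9248 := pre_step 2 tabB2 9232 16 (preB2_576) ckB2_577

theorem preB2_578 : Pre 2 tabB2 9264 := pre_step 2 tabB2 9248 16 (preB2_577) ckB2_578

theorem preB2_579 : Pre 2 tabB2 9280 := pre_step 2 tabB2 9264 16 (preB2_578) ckB2_579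

theorem preB2_580 : Pre 2 tabB2 9296 := pre_step 2 tabB2 9280 16 (preB2_579) ckB2_580

theorem preB2_581 : Pre 2 tabB2 9312 := pre_step 2 tabB2 9296 16 (preB2_580) ckB2_581

theorem preB2_582 : Pre 2 tabB2 9328 := pre_step 2 tabB2 9312 16 (preB2_581) ckB2_582

theorem preB2_583 : Pre 2 tabB2 9344 := pre_step 2 tabB2 9328 16 (preB2_582) ckB2_583

theorem preB2_584 : Pre 2 tabB2 9360 := pre_step 2 tabB2 9344 16 (preB2_583) ckB2_584

theorem preB2_585 : Pre 2 tabB2 9376 := pre_step 2 tabB2 9360 16 (preB2_584) ckB2_585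

theorem preB2_586 : Pre 2 tabB2 9392 := pre_step 2 tabB2 9376 16 (preB2_585) ckB2_586

theorem preB2_587 : Pre 2 tabB2 9408 := pre_step 2 tabB2 9392 16 (preB2_586) ckB2_587

theorem preB2_588 : Pre 2 tabB2 9424 := pre_step 2 tabB2 9408 16 (preB2_587) ckB2_588

theorem preB2_589 : Pre 2 tabB2 9440 := pre_step 2 tabB2 9424 16 (preB2_588) ckB2_589

theorem preB2_590 : Pre 2 tabB2 9456 := pre_step 2 tabB2 9440 16 (preB2_589) ckB2_590

theorem preB2_591 : Pre 2 tabB2 9472 := pre_step 2 tabB2 9456 16 (preB2_590) ckB2_591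

theorem preB2_592 : Pre 2 tabB2 9488 := pre_step 2 tabB2 9472 16 (preB2_591) ckB2_592

theorem preB2_593 : Pre 2 tabB2 9504 := pre_step 2 tabB2 9488 16 (preB2_592) ckB2_593

theorem preB2_594 : Pre 2 tabB2 9520 := pre_step 2 tabB2 9504 16 (preB2_593) ckB2_594

theorem preB2_595 : Pre 2 tabB2 9536 := pre_step 2 tabB2 9520 16 (preB2_594) ckB2_595

theorem preB2_596 : Pre 2 tabB2 9552 := pre_step 2 tabB2 9536 16 (preB2_595) ckB2_596

theorem preB2_597 : Pre 2 tabB2 9568 := pre_step 2 tabB2 9552 16 (preB2_596) ckB2_597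

theorem preB2_598 : Pre 2 tabB2 9584 := pre_step 2 tabB2 9568 16 (preB2_597) ckB2_598

theorem preB2_599 : Pre 2 tabB2 9600 := pre_step 2 tabB2 9584 16 (preB2_598) ckB2_599

theorem preB2_600 : Pre 2 tabB2 9616 := pre_step 2 tabB2 9600 16 (preB2_599) ckB2_600

theorem preB2_601 : Pre 2 tabB2 9632 := pre_step 2 tabB2 9616 16 (preB2_600) ckB2_601

theorem preB2_602 : Pre 2 tabB2 9648 := pre_step 2 tabB2 9632 16 (preB2_601) ckB2_602

theorem preB2_603 : Pre 2 tabB2 9664 := pre_step 2 tabB2 9648 16 (preB2_602) ckB2_603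

theorem preB2_604 : Pre 2 tabB2 9680 := pre_step 2 tabB2 9664 16 (preB2_603) ckB2_604

theorem preB2_605 : Pre 2 tabB2 9696 := pre_step 2 tabB2 9680 16 (preB2_604) ckB2_605

theorem preB2_606 : Pre 2 tabB2 9712 := pre_step 2 tabB2 9696 16 (preB2_605) ckB2_606

theorem preB2_607 : Pre 2 tabB2 9728 := pre_step 2 tabB2 9712 16 (preB2_606) ckB2_607

theorem preB2_608 : Pre 2 tabB2 9744 := pre_step 2 tabB2 9728 16 (preB2_607) ckB2_608

theorem preB2_609 : Pre 2 tabB2 9760 := pre_step 2 tabB2 9744 16 (preB2_608) ckB2_609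

theorem preB2_610 : Pre 2 tabB2 9776 := pre_step 2 tabB2 9760 16 (preB2_609) ckB2_610

theorem preB2_611 : Pre 2 tabB2 9792 := pre_step 2 tabB2 9776 16 (preB2_610) ckB2_611

theorem preB2_612 : Pre 2 tabB2 9808 := pre_step 2 tabB2 9792 16 (preB2_611) ckB2_612

theorem preB2_613 : Pre 2 tabB2 9824 := pre_step 2 tabB2 9808 16 (preB2_612) ckB2_613

theorem preB2_614 : Pre 2 tabB2 9840 := pre_step 2 tabB2 9824 16 (preB2_613) ckB2_614

theorem preB2_615 : Pre 2 tabB2 9856 := pre_step 2 tabB2 9840 16 (preB2_614) ckB2_615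

theorem preB2_616 : Pre 2 tabB2 9872 := pre_step 2 tabB2 9856 16 (preB2_615) ckB2_616

theorem preB2_617 : Pre 2 tabB2 9888 := pre_step 2 tabB2 9872 16 (preB2_616) ckB2_617

theorem preB2_618 : Pre 2 tabB2 9904 := pre_step 2 tabB2 9888 16 (preB2_617) ckB2_618

theorem preB2_619 : Pre 2 tabB2 9920 := pre_step 2 tabB2 9904 16 (preB2_618) ckB2_619

theorem preB2_620 : Pre 2 tabB2 9936 := pre_step 2 tabB2 9920 16 (preB2_619) ckB2_620

theorem preB2_621 : Pre 2 tabB2 9952 := pre_step 2 tabB2 9936 16 (preB2_620) ckB2_621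

theorem preB2_622 : Pre 2 tabB2 9968 := pre_step 2 tabB2 9952 16 (preB2_621) ckB2_622

theorem preB2_623 : Pre 2 tabB2 9984 := pre_step 2 tabB2 9968 16 (preB2_622) ckB2_623

theorem preB2_624 : Pre 2 tabB2 10000 := pre_step 2 tabB2 9984 16 (preB2_623) ckB2_624

theorem preB2_625 : Pre 2 tabB2 10016 := pre_step 2 tabB2 10000 16 (preB2_624) ckB2_625

theorem preB2_626 : Pre 2 tabB2 10032 := pre_step 2 tabB2 10016 16 (preB2_625) ckB2_626

theorem preB2_627 : Pre 2 tabB2 10048 := pre_step 2 tabB2 10032 16 (preB2_626) ckB2_627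

theorem preB2_628 : Pre 2 tabB2 10064 := pre_step 2 tabB2 10048 16 (preB2_627) ckB2_628

theorem preB2_629 : Pre 2 tabB2 10080 := pre_step 2 tabB2 10064 16 (preB2_628) ckB2_629

theorem preB2_630 : Pre 2 tabB2 10096 := pre_step 2 tabB2 10080 16 (preB2_629) ckB2_630

theorem preB2_631 : Pre 2 tabB2 10112 := pre_step 2 tabB2 10096 16 (preB2_630) ckB2_631

theorem preB2_632 : Pre 2 tabB2 10128 := pre_step 2 tabB2 10112 16 (preB2_631) ckB2_632

theorem preB2_633 : Pre 2 tabB2 10144 := pre_step 2 tabB2 10128 16 (preB2_632) ckB2_633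

theorem preB2_634 : Pre 2 tabB2 10160 := pre_step 2 tabB2 10144 16 (preB2_633) ckB2_634

theorem preB2_635 : Pre 2 tabB2 10176 := pre_step 2 tabB2 10160 16 (preB2_634) ckB2_635

theorem preB2_636 : Pre 2 tabB2 10192 := pre_step 2 tabB2 10176 16 (preB2_635) ckB2_636

theorem preB2_637 : Pre 2 tabB2 10208 := pre_step 2 tabB2 10192 16 (preB2_636) ckB2_637

theorem preB2_638 : Pre 2 tabB2 10224 := pre_step 2 tabB2 10208 16 (preB2_637) ckB2_638

theorem preB2_639 : Pre 2 tabB2 10240 := pre_step 2 tabB2 10224 16 (preB2_638) ckB2_639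

theorem preB2_640 : Pre 2 tabB2 10256 := pre_step 2 tabB2 10240 16 (preB2_639) ckB2_640

theorem preB2_641 : Pre 2 tabB2 10272 := pre_step 2 tabB2 10256 16 (preB2_640) ckB2_641

theorem preB2_642 : Pre 2 tabB2 10288 := pre_step 2 tabB2 10272 16 (preB2_641) ckB2_642

theorem preB2_643 : Pre 2 tabB2 10304 := pre_step 2 tabB2 10288 16 (preB2_642) ckB2_643

theorem preB2_644 : Pre 2 tabB2 10320 := pre_step 2 tabB2 10304 16 (preB2_643) ckB2_644

theorem preB2_645 : Pre 2 tabB2 10336 := pre_step 2 tabB2 10320 16 (preB2_644) ckB2_645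

theorem preB2_646 : Pre 2 tabB2 10352 := pre_step 2 tabB2 10336 16 (preB2_645) ckB2_646

theorem preB2_647 : Pre 2 tabB2 10368 := pre_step 2 tabB2 10352 16 (preB2_646) ckB2_647

theorem preB2_648 : Pre 2 tabB2 10384 := pre_step 2 tabB2 10368 16 (preB2_647) ckB2_648

theorem preB2_649 : Pre 2 tabB2 10400 := pre_step 2 tabB2 10384 16 (preB2_648) ckB2_649

theorem preB2_650 : Pre 2 tabB2 10416 := pre_step 2 tabB2 10400 16 (preB2_649) ckB2_650

theorem preB2_651 : Pre 2 tabB2 10432 := pre_step 2 tabB2 10416 16 (preB2_650) ckB2_651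

theorem preB2_652 : Pre 2 tabB2 10448 := pre_step 2 tabB2 10432 16 (preB2_651) ckB2_652

theorem preB2_653 : Pre 2 tabB2 10464 := pre_step 2 tabB2 10448 16 (preB2_652) ckB2_653

theorem preB2_654 : Pre 2 tabB2 10480 := pre_step 2 tabB2 10464 16 (preB2_653) ckB2_654

theorem preB2_655 : Pre 2 tabB2 10496 := pre_step 2 tabB2 10480 16 (preB2_654) ckB2_655

theorem preB2_656 : Pre 2 tabB2 10512 := pre_step 2 tabB2 10496 16 (preB2_655) ckB2_656

theorem preB2_657 : Pre 2 tabB2 10528 := pre_step 2 tabB2 10512 16 (preB2_656) ckB2_657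

theorem preB2_658 : Pre 2 tabB2 10544 := pre_step 2 tabB2 10528 16 (preB2_657) ckB2_658

theorem preB2_659 : Pre 2 tabB2 10560 := pre_step 2 tabB2 10544 16 (preB2_658) ckB2_659

theorem preB2_660 : Pre 2 tabB2 10576 := pre_step 2 tabB2 10560 16 (preB2_659) ckB2_660

theorem preB2_661 : Pre 2 tabB2 10592 := pre_step 2 tabB2 10576 16 (preB2_660) ckB2_661

theorem preB2_662 : Pre 2 tabB2 10608 := pre_step 2 tabB2 10592 16 (preB2_661) ckB2_662

theorem preB2_663 : Pre 2 tabB2 10624 := pre_step 2 tabB2 10608 16 (preB2_662) ckB2_663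

theorem preB2_664 : Pre 2 tabB2 10640 := pre_step 2 tabB2 10624 16 (preB2_663) ckB2_664

theorem preB2_665 : Pre 2 tabB2 10656 := pre_step 2 tabB2 10640 16 (preB2_664) ckB2_665

theorem preB2_666 : Pre 2 tabB2 10672 := pre_step 2 tabB2 10656 16 (preB2_665) ckB2_666

theorem preB2_667 : Pre 2 tabB2 10688 := pre_step 2 tabB2 10672 16 (preB2_666) ckB2_667

theorem preB2_668 : Pre 2 tabB2 10704 := pre_step 2 tabB2 10688 16 (preB2_667) ckB2_668

theorem preB2_669 : Pre 2 tabB2 10720 := pre_step 2 tabB2 10704 16 (preB2_668) ckB2_669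

theorem preB2_670 : Pre 2 tabB2 10736 := pre_step 2 tabB2 10720 16 (preB2_669) ckB2_670

theorem preB2_671 : Pre 2 tabB2 10752 := pre_step 2 tabB2 10736 16 (preB2_670) ckB2_671

theorem preB2_672 : Pre 2 tabB2 10768 := pre_step 2 tabB2 10752 16 (preB2_671) ckB2_672

theorem preB2_673 : Pre 2 tabB2 10784 := pre_step 2 tabB2 10768 16 (preB2_672) ckB2_673

theorem preB2_674 : Pre 2 tabB2 10800 := pre_step 2 tabB2 10784 16 (preB2_673) ckB2_674

theorem preB2_675 : Pre 2 tabB2 10816 := pre_step 2 tabB2 10800 16 (preB2_674) ckB2_675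

theorem preB2_676 : Pre 2 tabB2 10832 := pre_step 2 tabB2 10816 16 (preB2_675) ckB2_676

theorem preB2_677 : Pre 2 tabB2 10848 := pre_step 2 tabB2 10832 16 (preB2_676) ckB2_677

theorem preB2_678 : Pre 2 tabB2 10864 := pre_step 2 tabB2 10848 16 (preB2_677) ckB2_678

theorem preB2_679 : Pre 2 tabB2 10880 := pre_step 2 tabB2 10864 16 (preB2_678) ckB2_679

theorem preB2_680 : Pre 2 tabB2 10896 := pre_step 2 tabB2 10880 16 (preB2_679) ckB2_680

theorem preB2_681 : Pre 2 tabB2 10912 := pre_step 2 tabB2 10896 16 (preB2_680) ckB2_681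

theorem preB2_682 : Pre 2 tabB2 10928 := pre_step 2 tabB2 10912 16 (preB2_681) ckB2_682

theorem preB2_683 : Pre 2 tabB2 10944 := pre_step 2 tabB2 10928 16 (preB2_682) ckB2_683

theorem preB2_684 : Pre 2 tabB2 10960 := pre_step 2 tabB2 10944 16 (preB2_683) ckB2_684

theorem preB2_685 : Pre 2 tabB2 10976 := pre_step 2 tabB2 10960 16 (preB2_684) ckB2_685

theorem preB2_686 : Pre 2 tabB2 10992 := pre_step 2 tabB2 10976 16 (preB2_685) ckB2_686

theorem preB2_687 : Pre 2 tabB2 11008 := pre_step 2 tabB2 10992 16 (preB2_686) ckB2_687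

theorem preB2_688 : Pre 2 tabB2 11024 := pre_step 2 tabB2 11008 16 (preB2_687) ckB2_688

theorem preB2_689 : Pre 2 tabB2 11040 := pre_step 2 tabB2 11024 16 (preB2_688) ckB2_689

theorem preB2_690 : Pre 2 tabB2 11056 := pre_step 2 tabB2 11040 16 (preB2_689) ckB2_690

theorem preB2_691 : Pre 2 tabB2 11072 := pre_step 2 tabB2 11056 16 (preB2_690) ckB2_691

theorem preB2_692 : Pre 2 tabB2 11088 := pre_step 2 tabB2 11072 16 (preB2_691) ckB2_692

theorem preB2_693 : Pre 2 tabB2 11104 := pre_step 2 tabB2 11088 16 (preB2_692) ckB2_693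

theorem preB2_694 : Pre 2 tabB2 11120 := pre_step 2 tabB2 11104 16 (preB2_693) ckB2_694

theorem preB2_695 : Pre 2 tabB2 11136 := pre_step 2 tabB2 11120 16 (preB2_694) ckB2_695

theorem preB2_696 : Pre 2 tabB2 11152 := pre_step 2 tabB2 11136 16 (preB2_695) ckB2_696

theorem preB2_697 : Pre 2 tabB2 11168 := pre_step 2 tabB2 11152 16 (preB2_696) ckB2_697

theorem preB2_698 : Pre 2 tabB2 11184 := pre_step 2 tabB2 11168 16 (preB2_697) ckB2_698

theorem preB2_699 : Pre 2 tabB2 11200 := pre_step 2 tabB2 11184 16 (preB2_698) ckB2_699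

theorem preB2_700 : Pre 2 tabB2 11216 := pre_step 2 tabB2 11200 16 (preB2_699) ckB2_700

theorem preB2_701 : Pre 2 tabB2 11232 := pre_step 2 tabB2 11216 16 (preB2_700) ckB2_701

theorem preB2_702 : Pre 2 tabB2 11248 := pre_step 2 tabB2 11232 16 (preB2_701) ckB2_702

theorem preB2_703 : Pre 2 tabB2 11264 := pre_step 2 tabB2 11248 16 (preB2_702) ckB2_703

theorem preB2_704 : Pre 2 tabB2 11280 := pre_step 2 tabB2 11264 16 (preB2_703) ckB2_704

theorem preB2_705 : Pre 2 tabB2 11296 := pre_step 2 tabB2 11280 16 (preB2_704) ckB2_705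

theorem preB2_706 : Pre 2 tabB2 11312 := pre_step 2 tabB2 11296 16 (preB2_705) ckB2_706

theorem preB2_707 : Pre 2 tabB2 11328 := pre_step 2 tabB2 11312 16 (preB2_706) ckB2_707

theorem preB2_708 : Pre 2 tabB2 11344 := pre_step 2 tabB2 11328 16 (preB2_707) ckB2_708

theorem preB2_709 : Pre 2 tabB2 11360 := pre_step 2 tabB2 11344 16 (preB2_708) ckB2_709

theorem preB2_710 : Pre 2 tabB2 11376 := pre_step 2 tabB2 11360 16 (preB2_709) ckB2_710

theorem preB2_711 : Pre 2 tabB2 11392 := pre_step 2 tabB2 11376 16 (preB2_710) ckB2_711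

theorem preB2_712 : Pre 2 tabB2 11408 := pre_step 2 tabB2 11392 16 (preB2_711) ckB2_712

theorem preB2_713 : Pre 2 tabB2 11424 := pre_step 2 tabB2 11408 16 (preB2_712) ckB2_713

theorem preB2_714 : Pre 2 tabB2 11440 := pre_step 2 tabB2 11424 16 (preB2_713) ckB2_714

theorem preB2_715 : Pre 2 tabB2 11456 := pre_step 2 tabB2 11440 16 (preB2_714) ckB2_715

theorem preB2_716 : Pre 2 tabB2 11472 := pre_step 2 tabB2 11456 16 (preB2_715) ckB2_716

theorem preB2_717 : Pre 2 tabB2 11488 := pre_step 2 tabB2 11472 16 (preB2_716) ckB2_717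

theorem preB2_718 : Pre 2 tabB2 11504 := pre_step 2 tabB2 11488 16 (preB2_717) ckB2_718

theorem preB2_719 : Pre 2 tabB2 11520 := pre_step 2 tabB2 11504 16 (preB2_718) ckB2_719

theorem preB2_720 : Pre 2 tabB2 11536 := pre_step 2 tabB2 11520 16 (preB2_719) ckB2_720

theorem preB2_721 : Pre 2 tabB2 11552 := pre_step 2 tabB2 11536 16 (preB2_720) ckB2_721

theorem preB2_722 : Pre 2 tabB2 11568 := pre_step 2 tabB2 11552 16 (preB2_721) ckB2_722

theorem preB2_723 : Pre 2 tabB2 11584 := pre_step 2 tabB2 11568 16 (preB2_722) ckB2_723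

theorem preB2_724 : Pre 2 tabB2 11600 := pre_step 2 tabB2 11584 16 (preB2_723) ckB2_724

theorem preB2_725 : Pre 2 tabB2 11616 := pre_step 2 tabB2 11600 16 (preB2_724) ckB2_725

theorem preB2_726 : Pre 2 tabB2 11632 := pre_step 2 tabB2 11616 16 (preB2_725) ckB2_726

theorem preB2_727 : Pre 2 tabB2 11648 := pre_step 2 tabB2 11632 16 (preB2_726) ckB2_727

theorem preB2_728 : Pre 2 tabB2 11664 := pre_step 2 tabB2 11648 16 (preB2_727) ckB2_728

theorem preB2_729 : Pre 2 tabB2 11680 := pre_step 2 tabB2 11664 16 (preB2_728) ckB2_729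

theorem preB2_730 : Pre 2 tabB2 11696 := pre_step 2 tabB2 11680 16 (preB2_729) ckB2_730

theorem preB2_731 : Pre 2 tabB2 11712 := pre_step 2 tabB2 11696 16 (preB2_730) ckB2_731

theorem preB2_732 : Pre 2 tabB2 11728 := pre_step 2 tabB2 11712 16 (preB2_731) ckB2_732

theorem preB2_733 : Pre 2 tabB2 11744 := pre_step 2 tabB2 11728 16 (preB2_732) ckB2_733

theorem preB2_734 : Pre 2 tabB2 11760 := pre_step 2 tabB2 11744 16 (preB2_733) ckB2_734

theorem preB2_735 : Pre 2 tabB2 11776 := pre_step 2 tabB2 11760 16 (preB2_734) ckB2_735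

theorem preB2_736 : Pre 2 tabB2 11792 := pre_step 2 tabB2 11776 16 (preB2_735) ckB2_736

theorem preB2_737 : Pre 2 tabB2 11808 := pre_step 2 tabB2 11792 16 (preB2_736) ckB2_737

theorem preB2_738 : Pre 2 tabB2 11824 := pre_step 2 tabB2 11808 16 (preB2_737) ckB2_738

theorem preB2_739 : Pre 2 tabB2 11840 := pre_step 2 tabB2 11824 16 (preB2_738) ckB2_739

theorem preB2_740 : Pre 2 tabB2 11856 := pre_step 2 tabB2 11840 16 (preB2_739) ckB2_740

theorem preB2_741 : Pre 2 tabB2 11872 := pre_step 2 tabB2 11856 16 (preB2_740) ckB2_741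

theorem preB2_742 : Pre 2 tabB2 11888 := pre_step 2 tabB2 11872 16 (preB2_741) ckB2_742

theorem preB2_743 : Pre 2 tabB2 11904 := pre_step 2 tabB2 11888 16 (preB2_742) ckB2_743

theorem preB2_744 : Pre 2 tabB2 11920 := pre_step 2 tabB2 11904 16 (preB2_743) ckB2_744

theorem preB2_745 : Pre 2 tabB2 11936 := pre_step 2 tabB2 11920 16 (preB2_744) ckB2_745

theorem preB2_746 : Pre 2 tabB2 11952 := pre_step 2 tabB2 11936 16 (preB2_745) ckB2_746

theorem preB2_747 : Pre 2 tabB2 11968 := pre_step 2 tabB2 11952 16 (preB2_746) ckB2_747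

theorem preB2_748 : Pre 2 tabB2 11984 := pre_step 2 tabB2 11968 16 (preB2_747) ckB2_748

theorem preB2_749 : Pre 2 tabB2 12000 := pre_step 2 tabB2 11984 16 (preB2_748) ckB2_749

theorem preB2_750 : Pre 2 tabB2 12016 := pre_step 2 tabB2 12000 16 (preB2_749) ckB2_750

theorem preB2_751 : Pre 2 tabB2 12032 := pre_step 2 tabB2 12016 16 (preB2_750) ckB2_751

theorem preB2_752 : Pre 2 tabB2 12048 := pre_step 2 tabB2 12032 16 (preB2_751) ckB2_752

theorem preB2_753 : Pre 2 tabB2 12064 := pre_step 2 tabB2 12048 16 (preB2_752) ckB2_753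

theorem preB2_754 : Pre 2 tabB2 12080 := pre_step 2 tabB2 12064 16 (preB2_753) ckB2_754

theorem preB2_755 : Pre 2 tabB2 12096 := pre_step 2 tabB2 12080 16 (preB2_754) ckB2_755

theorem preB2_756 : Pre 2 tabB2 12112 := pre_step 2 tabB2 12096 16 (preB2_755) ckB2_756

theorem preB2_757 : Pre 2 tabB2 12128 := pre_step 2 tabB2 12112 16 (preB2_756) ckB2_757

theorem preB2_758 : Pre 2 tabB2 12144 := pre_step 2 tabB2 12128 16 (preB2_757) ckB2_758

theorem preB2_759 : Pre 2 tabB2 12160 := pre_step 2 tabB2 12144 16 (preB2_758) ckB2_759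

theorem preB2_760 : Pre 2 tabB2 12176 := pre_step 2 tabB2 12160 16 (preB2_759) ckB2_760

theorem preB2_761 : Pre 2 tabB2 12192 := pre_step 2 tabB2 12176 16 (preB2_760) ckB2_761

theorem preB2_762 : Pre 2 tabB2 12208 := pre_step 2 tabB2 12192 16 (preB2_761) ckB2_762

theorem preB2_763 : Pre 2 tabB2 12224 := pre_step 2 tabB2 12208 16 (preB2_762) ckB2_763

theorem preB2_764 : Pre 2 tabB2 12240 := pre_step 2 tabB2 12224 16 (preB2_763) ckB2_764

theorem preB2_765 : Pre 2 tabB2 12256 := pre_step 2 tabB2 12240 16 (preB2_764) ckB2_765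

theorem preB2_766 : Pre 2 tabB2 12272 := pre_step 2 tabB2 12256 16 (preB2_765) ckB2_766

theorem preB2_767 : Pre 2 tabB2 12288 := pre_step 2 tabB2 12272 16 (preB2_766) ckB2_767

theorem preB2_768 : Pre 2 tabB2 12304 := pre_step 2 tabB2 12288 16 (preB2_767) ckB2_768

theorem preB2_769 : Pre 2 tabB2 12320 := pre_step 2 tabB2 12304 16 (preB2_768) ckB2_769

theorem preB2_770 : Pre 2 tabB2 12336 := pre_step 2 tabB2 12320 16 (preB2_769) ckB2_770

theorem preB2_771 : Pre 2 tabB2 12352 := pre_step 2 tabB2 12336 16 (preB2_770) ckB2_771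

theorem preB2_772 : Pre 2 tabB2 12368 := pre_step 2 tabB2 12352 16 (preB2_771) ckB2_772

theorem preB2_773 : Pre 2 tabB2 12384 := pre_step 2 tabB2 12368 16 (preB2_772) ckB2_773

theorem preB2_774 : Pre 2 tabB2 12400 := pre_step 2 tabB2 12384 16 (preB2_773) ckB2_774

theorem preB2_775 : Pre 2 tabB2 12416 := pre_step 2 tabB2 12400 16 (preB2_774) ckB2_775

theorem preB2_776 : Pre 2 tabB2 12432 := pre_step 2 tabB2 12416 16 (preB2_775) ckB2_776

theorem preB2_777 : Pre 2 tabB2 12448 := pre_step 2 tabB2 12432 16 (preB2_776) ckB2_777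

theorem preB2_778 : Pre 2 tabB2 12464 := pre_step 2 tabB2 12448 16 (preB2_777) ckB2_778

theorem preB2_779 : Pre 2 tabB2 12480 := pre_step 2 tabB2 12464 16 (preB2_778) ckB2_779

theorem preB2_780 : Pre 2 tabB2 12496 := pre_step 2 tabB2 12480 16 (preB2_779) ckB2_780

theorem preB2_781 : Pre 2 tabB2 12512 := pre_step 2 tabB2 12496 16 (preB2_780) ckB2_781

theorem preB2_782 : Pre 2 tabB2 12528 := pre_step 2 tabB2 12512 16 (preB2_781) ckB2_782

theorem preB2_783 : Pre 2 tabB2 12544 := pre_step 2 tabB2 12528 16 (preB2_782) ckB2_783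

theorem preB2_784 : Pre 2 tabB2 12560 := pre_step 2 tabB2 12544 16 (preB2_783) ckB2_784

theorem preB2_785 : Pre 2 tabB2 12576 := pre_step 2 tabB2 12560 16 (preB2_784) ckB2_785

theorem preB2_786 : Pre 2 tabB2 12592 := pre_step 2 tabB2 12576 16 (preB2_785) ckB2_786

theorem preB2_787 : Pre 2 tabB2 12608 := pre_step 2 tabB2 12592 16 (preB2_786) ckB2_787

theorem preB2_788 : Pre 2 tabB2 12624 := pre_step 2 tabB2 12608 16 (preB2_787) ckB2_788

theorem preB2_789 : Pre 2 tabB2 12640 := pre_step 2 tabB2 12624 16 (preB2_788) ckB2_789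

theorem preB2_790 : Pre 2 tabB2 12656 := pre_step 2 tabB2 12640 16 (preB2_789) ckB2_790

theorem preB2_791 : Pre 2 tabB2 12672 := pre_step 2 tabB2 12656 16 (preB2_790) ckB2_791

theorem preB2_792 : Pre 2 tabB2 12688 := pre_step 2 tabB2 12672 16 (preB2_791) ckB2_792

theorem preB2_793 : Pre 2 tabB2 12704 := pre_step 2 tabB2 12688 16 (preB2_792) ckB2_793

theorem preB2_794 : Pre 2 tabB2 12720 := pre_step 2 tabB2 12704 16 (preB2_793) ckB2_794

theorem preB2_795 : Pre 2 tabB2 12736 := pre_step 2 tabB2 12720 16 (preB2_794) ckB2_795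

theorem preB2_796 : Pre 2 tabB2 12752 := pre_step 2 tabB2 12736 16 (preB2_795) ckB2_796

theorem preB2_797 : Pre 2 tabB2 12768 := pre_step 2 tabB2 12752 16 (preB2_796) ckB2_797

theorem preB2_798 : Pre 2 tabB2 12784 := pre_step 2 tabB2 12768 16 (preB2_797) ckB2_798

theorem preB2_799 : Pre 2 tabB2 12800 := pre_step 2 tabB2 12784 16 (preB2_798) ckB2_799

theorem preB2_800 : Pre 2 tabB2 12816 := pre_step 2 tabB2 12800 16 (preB2_799) ckB2_800

theorem preB2_801 : Pre 2 tabB2 12832 := pre_step 2 tabB2 12816 16 (preB2_800) ckB2_801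

theorem preB2_802 : Pre 2 tabB2 12848 := pre_step 2 tabB2 12832 16 (preB2_801) ckB2_802

theorem preB2_803 : Pre 2 tabB2 12864 := pre_step 2 tabB2 12848 16 (preB2_802) ckB2_803

theorem preB2_804 : Pre 2 tabB2 12880 := pre_step 2 tabB2 12864 16 (preB2_803) ckB2_804

theorem preB2_805 : Pre 2 tabB2 12896 := pre_step 2 tabB2 12880 16 (preB2_804) ckB2_805

theorem preB2_806 : Pre 2 tabB2 12912 := pre_step 2 tabB2 12896 16 (preB2_805) ckB2_806

theorem preB2_807 : Pre 2 tabB2 12928 := pre_step 2 tabB2 12912 16 (preB2_806) ckB2_807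

theorem preB2_808 : Pre 2 tabB2 12944 := pre_step 2 tabB2 12928 16 (preB2_807) ckB2_808

theorem preB2_809 : Pre 2 tabB2 12960 := pre_step 2 tabB2 12944 16 (preB2_808) ckB2_809

theorem preB2_810 : Pre 2 tabB2 12976 := pre_step 2 tabB2 12960 16 (preB2_809) ckB2_810

theorem preB2_811 : Pre 2 tabB2 12992 := pre_step 2 tabB2 12976 16 (preB2_810) ckB2_811

theorem preB2_812 : Pre 2 tabB2 13008 := pre_step 2 tabB2 12992 16 (preB2_811) ckB2_812

theorem preB2_813 : Pre 2 tabB2 13024 := pre_step 2 tabB2 13008 16 (preB2_812) ckB2_813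

theorem preB2_814 : Pre 2 tabB2 13040 := pre_step 2 tabB2 13024 16 (preB2_813) ckB2_814

theorem preB2_815 : Pre 2 tabB2 13056 := pre_step 2 tabB2 13040 16 (preB2_814) ckB2_815

theorem preB2_816 : Pre 2 tabB2 13072 := pre_step 2 tabB2 13056 16 (preB2_815) ckB2_816

theorem preB2_817 : Pre 2 tabB2 13088 := pre_step 2 tabB2 13072 16 (preB2_816) ckB2_817

theorem preB2_818 : Pre 2 tabB2 13104 := pre_step 2 tabB2 13088 16 (preB2_817) ckB2_818

theorem preB2_819 : Pre 2 tabB2 13120 := pre_step 2 tabB2 13104 16 (preB2_818) ckB2_819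

theorem preB2_820 : Pre 2 tabB2 13136 := pre_step 2 tabB2 13120 16 (preB2_819) ckB2_820

theorem preB2_821 : Pre 2 tabB2 13152 := pre_step 2 tabB2 13136 16 (preB2_820) ckB2_821

theorem preB2_822 : Pre 2 tabB2 13168 := pre_step 2 tabB2 13152 16 (preB2_821) ckB2_822

theorem preB2_823 : Pre 2 tabB2 13184 := pre_step 2 tabB2 13168 16 (preB2_822) ckB2_823

theorem preB2_824 : Pre 2 tabB2 13200 := pre_step 2 tabB2 13184 16 (preB2_823) ckB2_824

theorem preB2_825 : Pre 2 tabB2 13216 := pre_step 2 tabB2 13200 16 (preB2_824) ckB2_825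

theorem preB2_826 : Pre 2 tabB2 13232 := pre_step 2 tabB2 13216 16 (preB2_825) ckB2_826

theorem preB2_827 : Pre 2 tabB2 13248 := pre_step 2 tabB2 13232 16 (preB2_826) ckB2_827

theorem preB2_828 : Pre 2 tabB2 13264 := pre_step 2 tabB2 13248 16 (preB2_827) ckB2_828

theorem preB2_829 : Pre 2 tabB2 13280 := pre_step 2 tabB2 13264 16 (preB2_828) ckB2_829

theorem preB2_830 : Pre 2 tabB2 13296 := pre_step 2 tabB2 13280 16 (preB2_829) ckB2_830

theorem preB2_831 : Pre 2 tabB2 13312 := pre_step 2 tabB2 13296 16 (preB2_830) ckB2_831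

theorem preB2_832 : Pre 2 tabB2 13328 := pre_step 2 tabB2 13312 16 (preB2_831) ckB2_832

theorem preB2_833 : Pre 2 tabB2 13344 := pre_step 2 tabB2 13328 16 (preB2_832) ckB2_833

theorem preB2_834 : Pre 2 tabB2 13360 := pre_step 2 tabB2 13344 16 (preB2_833) ckB2_834

theorem preB2_835 : Pre 2 tabB2 13376 := pre_step 2 tabB2 13360 16 (preB2_834) ckB2_835

theorem preB2_836 : Pre 2 tabB2 13392 := pre_step 2 tabB2 13376 16 (preB2_835) ckB2_836

theorem preB2_837 : Pre 2 tabB2 13408 := pre_step 2 tabB2 13392 16 (preB2_836) ckB2_837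

theorem preB2_838 : Pre 2 tabB2 13424 := pre_step 2 tabB2 13408 16 (preB2_837) ckB2_838

theorem preB2_839 : Pre 2 tabB2 13440 := pre_step 2 tabB2 13424 16 (preB2_838) ckB2_839

theorem preB2_840 : Pre 2 tabB2 13456 := pre_step 2 tabB2 13440 16 (preB2_839) ckB2_840

theorem preB2_841 : Pre 2 tabB2 13472 := pre_step 2 tabB2 13456 16 (preB2_840) ckB2_841

theorem preB2_842 : Pre 2 tabB2 13488 := pre_step 2 tabB2 13472 16 (preB2_841) ckB2_842

theorem preB2_843 : Pre 2 tabB2 13504 := pre_step 2 tabB2 13488 16 (preB2_842) ckB2_843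

theorem preB2_844 : Pre 2 tabB2 13520 := pre_step 2 tabB2 13504 16 (preB2_843) ckB2_844

theorem preB2_845 : Pre 2 tabB2 13536 := pre_step 2 tabB2 13520 16 (preB2_844) ckB2_845

theorem preB2_846 : Pre 2 tabB2 13552 := pre_step 2 tabB2 13536 16 (preB2_845) ckB2_846

theorem preB2_847 : Pre 2 tabB2 13568 := pre_step 2 tabB2 13552 16 (preB2_846) ckB2_847

theorem preB2_848 : Pre 2 tabB2 13584 := pre_step 2 tabB2 13568 16 (preB2_847) ckB2_848

theorem preB2_849 : Pre 2 tabB2 13600 := pre_step 2 tabB2 13584 16 (preB2_848) ckB2_849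

theorem preB2_850 : Pre 2 tabB2 13616 := pre_step 2 tabB2 13600 16 (preB2_849) ckB2_850

theorem preB2_851 : Pre 2 tabB2 13632 := pre_step 2 tabB2 13616 16 (preB2_850) ckB2_851

theorem preB2_852 : Pre 2 tabB2 13648 := pre_step 2 tabB2 13632 16 (preB2_851) ckB2_852

theorem preB2_853 : Pre 2 tabB2 13664 := pre_step 2 tabB2 13648 16 (preB2_852) ckB2_853

theorem preB2_854 : Pre 2 tabB2 13680 := pre_step 2 tabB2 13664 16 (preB2_853) ckB2_854

theorem preB2_855 : Pre 2 tabB2 13696 := pre_step 2 tabB2 13680 16 (preB2_854) ckB2_855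

theorem preB2_856 : Pre 2 tabB2 13712 := pre_step 2 tabB2 13696 16 (preB2_855) ckB2_856

theorem preB2_857 : Pre 2 tabB2 13728 := pre_step 2 tabB2 13712 16 (preB2_856) ckB2_857

theorem preB2_858 : Pre 2 tabB2 13744 := pre_step 2 tabB2 13728 16 (preB2_857) ckB2_858

theorem preB2_859 : Pre 2 tabB2 13760 := pre_step 2 tabB2 13744 16 (preB2_858) ckB2_859

theorem preB2_860 : Pre 2 tabB2 13776 := pre_step 2 tabB2 13760 16 (preB2_859) ckB2_860

theorem preB2_861 : Pre 2 tabB2 13792 := pre_step 2 tabB2 13776 16 (preB2_860) ckB2_861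

theorem preB2_862 : Pre 2 tabB2 13808 := pre_step 2 tabB2 13792 16 (preB2_861) ckB2_862

theorem preB2_863 : Pre 2 tabB2 13824 := pre_step 2 tabB2 13808 16 (preB2_862) ckB2_863

theorem preB2_864 : Pre 2 tabB2 13840 := pre_step 2 tabB2 13824 16 (preB2_863) ckB2_864

theorem preB2_865 : Pre 2 tabB2 13856 := pre_step 2 tabB2 13840 16 (preB2_864) ckB2_865

theorem preB2_866 : Pre 2 tabB2 13872 := pre_step 2 tabB2 13856 16 (preB2_865) ckB2_866

theorem preB2_867 : Pre 2 tabB2 13888 := pre_step 2 tabB2 13872 16 (preB2_866) ckB2_867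

theorem preB2_868 : Pre 2 tabB2 13904 := pre_step 2 tabB2 13888 16 (preB2_867) ckB2_868

theorem preB2_869 : Pre 2 tabB2 13920 := pre_step 2 tabB2 13904 16 (preB2_868) ckB2_869

theorem preB2_870 : Pre 2 tabB2 13936 := pre_step 2 tabB2 13920 16 (preB2_869) ckB2_870

theorem preB2_871 : Pre 2 tabB2 13952 := pre_step 2 tabB2 13936 16 (preB2_870) ckB2_871

theorem preB2_872 : Pre 2 tabB2 13968 := pre_step 2 tabB2 13952 16 (preB2_871) ckB2_872

theorem preB2_873 : Pre 2 tabB2 13984 := pre_step 2 tabB2 13968 16 (preB2_872) ckB2_873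

theorem preB2_874 : Pre 2 tabB2 14000 := pre_step 2 tabB2 13984 16 (preB2_873) ckB2_874

theorem preB2_875 : Pre 2 tabB2 14016 := pre_step 2 tabB2 14000 16 (preB2_874) ckB2_875

theorem preB2_876 : Pre 2 tabB2 14032 := pre_step 2 tabB2 14016 16 (preB2_875) ckB2_876

theorem preB2_877 : Pre 2 tabB2 14048 := pre_step 2 tabB2 14032 16 (preB2_876) ckB2_877

theorem preB2_878 : Pre 2 tabB2 14064 := pre_step 2 tabB2 14048 16 (preB2_877) ckB2_878

theorem preB2_879 : Pre 2 tabB2 14080 := pre_step 2 tabB2 14064 16 (preB2_878) ckB2_879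

theorem preB2_880 : Pre 2 tabB2 14096 := pre_step 2 tabB2 14080 16 (preB2_879) ckB2_880

theorem preB2_881 : Pre 2 tabB2 14112 := pre_step 2 tabB2 14096 16 (preB2_880) ckB2_881

theorem preB2_882 : Pre 2 tabB2 14128 := pre_step 2 tabB2 14112 16 (preB2_881) ckB2_882

theorem preB2_883 : Pre 2 tabB2 14144 := pre_step 2 tabB2 14128 16 (preB2_882) ckB2_883

theorem preB2_884 : Pre 2 tabB2 14160 := pre_step 2 tabB2 14144 16 (preB2_883) ckB2_884

theorem preB2_885 : Pre 2 tabB2 14176 := pre_step 2 tabB2 14160 16 (preB2_884) ckB2_885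

theorem preB2_886 : Pre 2 tabB2 14192 := pre_step 2 tabB2 14176 16 (preB2_885) ckB2_886

theorem preB2_887 : Pre 2 tabB2 14208 := pre_step 2 tabB2 14192 16 (preB2_886) ckB2_887

theorem preB2_888 : Pre 2 tabB2 14224 := pre_step 2 tabB2 14208 16 (preB2_887) ckB2_888

theorem preB2_889 : Pre 2 tabB2 14240 := pre_step 2 tabB2 14224 16 (preB2_888) ckB2_889

theorem preB2_890 : Pre 2 tabB2 14256 := pre_step 2 tabB2 14240 16 (preB2_889) ckB2_890

theorem preB2_891 : Pre 2 tabB2 14272 := pre_step 2 tabB2 14256 16 (preB2_890) ckB2_891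

theorem preB2_892 : Pre 2 tabB2 14288 := pre_step 2 tabB2 14272 16 (preB2_891) ckB2_892

theorem preB2_893 : Pre 2 tabB2 14304 := pre_step 2 tabB2 14288 16 (preB2_892) ckB2_893

theorem preB2_894 : Pre 2 tabB2 14320 := pre_step 2 tabB2 14304 16 (preB2_893) ckB2_894

theorem preB2_895 : Pre 2 tabB2 14336 := pre_step 2 tabB2 14320 16 (preB2_894) ckB2_895

theorem preB2_896 : Pre 2 tabB2 14352 := pre_step 2 tabB2 14336 16 (preB2_895) ckB2_896

theorem preB2_897 : Pre 2 tabB2 14368 := pre_step 2 tabB2 14352 16 (preB2_896) ckB2_897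

theorem preB2_898 : Pre 2 tabB2 14384 := pre_step 2 tabB2 14368 16 (preB2_897) ckB2_898

theorem preB2_899 : Pre 2 tabB2 14400 := pre_step 2 tabB2 14384 16 (preB2_898) ckB2_899

theorem preB2_900 : Pre 2 tabB2 14416 := pre_step 2 tabB2 14400 16 (preB2_899) ckB2_900

theorem preB2_901 : Pre 2 tabB2 14432 := pre_step 2 tabB2 14416 16 (preB2_900) ckB2_901

theorem preB2_902 : Pre 2 tabB2 14448 := pre_step 2 tabB2 14432 16 (preB2_901) ckB2_902

theorem preB2_903 : Pre 2 tabB2 14464 := pre_step 2 tabB2 14448 16 (preB2_902) ckB2_903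

theorem preB2_904 : Pre 2 tabB2 14480 := pre_step 2 tabB2 14464 16 (preB2_903) ckB2_904

theorem preB2_905 : Pre 2 tabB2 14496 := pre_step 2 tabB2 14480 16 (preB2_904) ckB2_905

theorem preB2_906 : Pre 2 tabB2 14512 := pre_step 2 tabB2 14496 16 (preB2_905) ckB2_906

theorem preB2_907 : Pre 2 tabB2 14528 := pre_step 2 tabB2 14512 16 (preB2_906) ckB2_907

theorem preB2_908 : Pre 2 tabB2 14544 := pre_step 2 tabB2 14528 16 (preB2_907) ckB2_908

theorem preB2_909 : Pre 2 tabB2 14560 := pre_step 2 tabB2 14544 16 (preB2_908) ckB2_909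

theorem preB2_910 : Pre 2 tabB2 14576 := pre_step 2 tabB2 14560 16 (preB2_909) ckB2_910

theorem preB2_911 : Pre 2 tabB2 14592 := pre_step 2 tabB2 14576 16 (preB2_910) ckB2_911

theorem preB2_912 : Pre 2 tabB2 14608 := pre_step 2 tabB2 14592 16 (preB2_911) ckB2_912

theorem preB2_913 : Pre 2 tabB2 14624 := pre_step 2 tabB2 14608 16 (preB2_912) ckB2_913

theorem preB2_914 : Pre 2 tabB2 14640 := pre_step 2 tabB2 14624 16 (preB2_913) ckB2_914

theorem preB2_915 : Pre 2 tabB2 14656 := pre_step 2 tabB2 14640 16 (preB2_914) ckB2_915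

theorem preB2_916 : Pre 2 tabB2 14672 := pre_step 2 tabB2 14656 16 (preB2_915) ckB2_916

theorem preB2_917 : Pre 2 tabB2 14688 := pre_step 2 tabB2 14672 16 (preB2_916) ckB2_917

theorem preB2_918 : Pre 2 tabB2 14704 := pre_step 2 tabB2 14688 16 (preB2_917) ckB2_918

theorem preB2_919 : Pre 2 tabB2 14720 := pre_step 2 tabB2 14704 16 (preB2_918) ckB2_919

theorem preB2_920 : Pre 2 tabB2 14736 := pre_step 2 tabB2 14720 16 (preB2_919) ckB2_920

theorem preB2_921 : Pre 2 tabB2 14745 := pre_step 2 tabB2 14736 9 (preB2_920) ckB2_921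

end Vale.Agent.Lib.P045.RK
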