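import Vale.Agent.Lib.P045.R42BD2a
import Vale.Agent.Lib.P045.R42BD2b
import Vale.Agent.Lib.P045.R42BD2c
import Vale.Agent.Lib.P045.R42BD2d
import Vale.Agent.Lib.P045.R42BD2e
import Vale.Agent.Lib.P045.R42BD2f
import Vale.Agent.Lib.P045.R42BD2g
import Vale.Agent.Lib.P045.R42BD2h
import Vale.Agent.Lib.P045.R42BEng

/-! The table of the packed nodes of the certificate for matching number two (14745 nodes). -/

namespace Vale.Agent.Lib.P045.RK

/-- The packed node `i` of the certificate for matching number two, as a function of the block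
number `b` and of `i`. -/
noncomputable def topB2 (b i : Nat) : Nat :=
  (@Bool.rec (fun _ => Nat)
  (@Bool.rec (fun _ => Nat)
   (@Bool.rec (fun _ => Nat)
    (@Bool.rec (fun _ => Nat)
     (@Bool.rec (fun _ => Nat)
      (@Bool.rec (fun _ => Nat)
       (@Bool.rec (fun _ => Nat)
        (blkB2_0 (Nat.mod i 128))
        (blkB2_1 (Nat.mod i 128))
        (Nat.ble 1 b))
       (@Bool.rec (fun _ => Nat)
        (blkB2_2 (Nat.mod i 128))
        (blkB2_3 (Nat.mod i 128))
        (Nat.ble 3 b))
       (Nat.ble 2 b))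
      (@Bool.rec (fun _ => Nat)
       (@Bool.rec (fun _ => Nat)
        (blkB2_4 (Nat.mod i 128))
        (blkB2_5 (Nat.mod i 128))
        (Nat.ble 5 b))
       (@Bool.rec (fun _ => Nat)
        (blkB2_6 (Nat.mod i 128))
        (blkB2_7 (Nat.mod i 128))
        (Nat.ble 7 b))
       (Nat.ble 6 b))
      (Nat.ble 4 b))
     (@Bool.rec (fun _ => Nat)
      (@Bool.rec (fun _ => Nat)
       (@Bool.rec (fun _ => Nat)
        (blkB2_8 (Nat.mod i 128))
        (blkB2_9 (Nat.mod i 128))
        (Nat.ble 9 b))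
       (@Bool.rec (fun _ => Nat)
        (blkB2_10 (Nat.mod i 128))
        (blkB2_11 (Nat.mod i 128))
        (Nat.ble 11 b))
       (Nat.ble 10 b))
      (@Bool.rec (fun _ => Nat)
       (@Bool.rec (fun _ => Nat)
        (blkB2_12 (Nat.mod i 128))
        (blkB2_13 (Nat.mod i 128))
        (Nat.ble 13 b))
       (@Bool.rec (fun _ => Nat)
        (blkB2_14 (Nat.mod i 128))
        (blkB2_15 (Nat.mod i 128))
        (Nat.ble 15 b))
       (Nat.ble 14 b))
      (Nat.ble 12 b))
     (Nat.ble 8 b))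
    (@Bool.rec (fun _ => Nat)
     (@Bool.rec (fun _ => Nat)
      (@Bool.rec (fun _ => Nat)
       (@Bool.rec (fun _ => Nat)
        (blkB2_16 (Nat.mod i 128))
        (blkB2_17 (Nat.mod i 128))
        (Nat.ble 17 b))
       (@Bool.rec (fun _ => Nat)
        (blkB2_18 (Nat.mod i 128))
        (blkB2_19 (Nat.mod i 128))
        (Nat.ble 19 b))
       (Nat.ble 18 b))
      (@Bool.rec (fun _ => Nat)
       (@Bool.rec (fun _ => Nat)
        (blkB2_20 (Nat.mod i 128))
        (blkB2_21 (Nat.mod i 128))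
        (Nat.ble 21 b))
       (@Bool.rec (fun _ => Nat)
        (blkB2_22 (Nat.mod i 128))
        (blkB2_23 (Nat.mod i 128))
        (Nat.ble 23 b))
       (Nat.ble 22 b))
      (Nat.ble 20 b))
     (@Bool.rec (fun _ => Nat)
      (@Bool.rec (fun _ => Nat)
       (@Bool.rec (fun _ => Nat)
        (blkB2_24 (Nat.mod i 128))
        (blkB2_25 (Nat.mod i 128))
        (Nat.ble 25 b))
       (@Bool.rec (fun _ => Nat)
        (blkB2_26 (Nat.mod i 128))
        (blkB2_27 (Nat.mod i 128))
        (Nat.ble 27 b))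
       (Nat.ble 26 b))
      (@Bool.rec (fun _ => Nat)
       (@Bool.rec (fun _ => Nat)
        (blkB2_28 (Nat.mod i 128))
        (blkB2_29 (Nat.mod i 128))
        (Nat.ble 29 b))
       (@Bool.rec (fun _ => Nat)
        (blkB2_30 (Nat.mod i 128))
        (blkB2_31 (Nat.mod i 128))
        (Nat.ble 31 b))
       (Nat.ble 30 b))
      (Nat.ble 28 b))
     (Nat.ble 24 b))
    (Nat.ble 16 b))
   (@Bool.rec (fun _ => Nat)
    (@Bool.rec (fun _ => Nat)
     (@Bool.rec (fun _ => Nat)
      (@Bool.rec (fun _ => Nat)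
       (@Bool.rec (fun _ => Nat)
        (blkB2_32 (Nat.mod i 128))
        (blkB2_33 (Nat.mod i 128))
        (Nat.ble 33 b))
       (@Bool.rec (fun _ => Nat)
        (blkB2_34 (Nat.mod i 128))
        (blkB2_35 (Nat.mod i 128))
        (Nat.ble 35 b))
       (Nat.ble 34 b))
      (@Bool.rec (fun _ => Nat)
       (@Bool.rec (fun _ => Nat)
        (blkB2_36 (Nat.mod i 128))
        (blkB2_37 (Nat.mod i 128))
        (Nat.ble 37 b))
       (@Bool.rec (fun _ => Nat)
        (blkB2_38 (Nat.mod i 128))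
        (blkB2_39 (Nat.mod i 128))
        (Nat.ble 39 b))
       (Nat.ble 38 b))
      (Nat.ble 36 b))
     (@Bool.rec (fun _ => Nat)
      (@Bool.rec (fun _ => Nat)
       (@Bool.rec (fun _ => Nat)
        (blkB2_40 (Nat.mod i 128))
        (blkB2_41 (Nat.mod i 128))
        (Nat.ble 41 b))
       (@Bool.rec (fun _ => Nat)
        (blkB2_42 (Nat.mod i 128))
        (blkB2_43 (Nat.mod i 128))
        (Nat.ble 43 b))
       (Nat.ble 42 b))
      (@Bool.rec (fun _ => Nat)
       (@Bool.rec (fun _ => Nat)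
        (blkB2_44 (Nat.mod i 128))
        (blkB2_45 (Nat.mod i 128))
        (Nat.ble 45 b))
       (@Bool.rec (fun _ => Nat)
        (blkB2_46 (Nat.mod i 128))
        (blkB2_47 (Nat.mod i 128))
        (Nat.ble 47 b))
       (Nat.ble 46 b))
      (Nat.ble 44 b))
     (Nat.ble 40 b))
    (@Bool.rec (fun _ => Nat)
     (@Bool.rec (fun _ => Nat)
      (@Bool.rec (fun _ => Nat)
       (@Bool.rec (fun _ => Nat)
        (blkB2_48 (Nat.mod i 128))
        (blkB2_49 (Nat.mod i 128))
        (Nat.ble 49 b))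
       (@Bool.rec (fun _ => Nat)
        (blkB2_50 (Nat.mod i 128))
        (blkB2_51 (Nat.mod i 128))
        (Nat.ble 51 b))
       (Nat.ble 50 b))
      (@Bool.rec (fun _ => Nat)
       (@Bool.rec (fun _ => Nat)
        (blkB2_52 (Nat.mod i 128))
        (blkB2_53 (Nat.mod i 128))
        (Nat.ble 53 b))
       (@Bool.rec (fun _ => Nat)
        (blkB2_54 (Nat.mod i 128))
        (blkB2_55 (Nat.mod i 128))
        (Nat.ble 55 b))
       (Nat.ble 54 b))
      (Nat.ble 52 b))
     (@Bool.rec (fun _ => Nat)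
      (@Bool.rec (fun _ => Nat)
       (@Bool.rec (fun _ => Nat)
        (blkB2_56 (Nat.mod i 128))
        (blkB2_57 (Nat.mod i 128))
        (Nat.ble 57 b))
       (@Bool.rec (fun _ => Nat)
        (blkB2_58 (Nat.mod i 128))
        (blkB2_59 (Nat.mod i 128))
        (Nat.ble 59 b))
       (Nat.ble 58 b))
      (@Bool.rec (fun _ => Nat)
       (@Bool.rec (fun _ => Nat)
        (blkB2_60 (Nat.mod i 128))
        (blkB2_61 (Nat.mod i 128))
        (Nat.ble 61 b))
       (@Bool.rec (fun _ => Nat)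
        (blkB2_62 (Nat.mod i 128))
        (blkB2_63 (Nat.mod i 128))
        (Nat.ble 63 b))
       (Nat.ble 62 b))
      (Nat.ble 60 b))
     (Nat.ble 56 b))
    (Nat.ble 48 b))
   (Nat.ble 32 b))
  (@Bool.rec (fun _ => Nat)
   (@Bool.rec (fun _ => Nat)
    (@Bool.rec (fun _ => Nat)
     (@Bool.rec (fun _ => Nat)
      (@Bool.rec (fun _ => Nat)
       (@Bool.rec (fun _ => Nat)
        (blkB2_64 (Nat.mod i 128))
        (blkB2_65 (Nat.mod i 128))
        (Nat.ble 65 b))
       (@Bool.rec (fun _ => Nat)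
        (blkB2_66 (Nat.mod i 128))
        (blkB2_67 (Nat.mod i 128))
        (Nat.ble 67 b))
       (Nat.ble 66 b))
      (@Bool.rec (fun _ => Nat)
       (@Bool.rec (fun _ => Nat)
        (blkB2_68 (Nat.mod i 128))
        (blkB2_69 (Nat.mod i 128))
        (Nat.ble 69 b))
       (@Bool.rec (fun _ => Nat)
        (blkB2_70 (Nat.mod i 128))
        (blkB2_71 (Nat.mod i 128))
        (Nat.ble 71 b))
       (Nat.ble 70 b))
      (Nat.ble 68 b))
     (@Bool.rec (fun _ => Nat)
      (@Bool.rec (fun _ => Nat)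
       (@Bool.rec (fun _ => Nat)
        (blkB2_72 (Nat.mod i 128))
        (blkB2_73 (Nat.mod i 128))
        (Nat.ble 73 b))
       (@Bool.rec (fun _ => Nat)
        (blkB2_74 (Nat.mod i 128))
        (blkB2_75 (Nat.mod i 128))
        (Nat.ble 75 b))
       (Nat.ble 74 b))
      (@Bool.rec (fun _ => Nat)
       (@Bool.rec (fun _ => Nat)
        (blkB2_76 (Nat.mod i 128))
        (blkB2_77 (Nat.mod i 128))
        (Nat.ble 77 b))
       (@Bool.rec (fun _ => Nat)
        (blkB2_78 (Nat.mod i 128))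
        (blkB2_79 (Nat.mod i 128))
        (Nat.ble 79 b))
       (Nat.ble 78 b))
      (Nat.ble 76 b))
     (Nat.ble 72 b))
    (@Bool.rec (fun _ => Nat)
     (@Bool.rec (fun _ => Nat)
      (@Bool.rec (fun _ => Nat)
       (@Bool.rec (fun _ => Nat)
        (blkB2_80 (Nat.mod i 128))
        (blkB2_81 (Nat.mod i 128))
        (Nat.ble 81 b))
       (@Bool.rec (fun _ => Nat)
        (blkB2_82 (Nat.mod i 128))
        (blkB2_83 (Nat.mod i 128))
        (Nat.ble 83 b))
       (Nat.ble 82 b))
      (@Bool.rec (fun _ => Nat)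
       (@Bool.rec (fun _ => Nat)
        (blkB2_84 (Nat.mod i 128))
        (blkB2_85 (Nat.mod i 128))
        (Nat.ble 85 b))
       (@Bool.rec (fun _ => Nat)
        (blkB2_86 (Nat.mod i 128))
        (blkB2_87 (Nat.mod i 128))
        (Nat.ble 87 b))
       (Nat.ble 86 b))
      (Nat.ble 84 b))
     (@Bool.rec (fun _ => Nat)
      (@Bool.rec (fun _ => Nat)
       (@Bool.rec (fun _ => Nat)
        (blkB2_88 (Nat.mod i 128))
        (blkB2_89 (Nat.mod i 128))
        (Nat.ble 89 b))
       (@Bool.rec (fun _ => Nat)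
        (blkB2_90 (Nat.mod i 128))
        (blkB2_91 (Nat.mod i 128))
        (Nat.ble 91 b))
       (Nat.ble 90 b))
      (@Bool.rec (fun _ => Nat)
       (@Bool.rec (fun _ => Nat)
        (blkB2_92 (Nat.mod i 128))
        (blkB2_93 (Nat.mod i 128))
        (Nat.ble 93 b))
       (@Bool.rec (fun _ => Nat)
        (blkB2_94 (Nat.mod i 128))
        (blkB2_95 (Nat.mod i 128))
        (Nat.ble 95 b))
       (Nat.ble 94 b))
      (Nat.ble 92 b))
     (Nat.ble 88 b))
    (Nat.ble 80 b))
   (@Bool.rec (fun _ => Nat)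
    (@Bool.rec (fun _ => Nat)
     (@Bool.rec (fun _ => Nat)
      (@Bool.rec (fun _ => Nat)
       (@Bool.rec (fun _ => Nat)
        (blkB2_96 (Nat.mod i 128))
        (blkB2_97 (Nat.mod i 128))
        (Nat.ble 97 b))
       (@Bool.rec (fun _ => Nat)
        (blkB2_98 (Nat.mod i 128))
        (blkB2_99 (Nat.mod i 128))
        (Nat.ble 99 b))
       (Nat.ble 98 b))
      (@Bool.rec (fun _ => Nat)
       (@Bool.rec (fun _ => Nat)
        (blkB2_100 (Nat.mod i 128))
        (blkB2_101 (Nat.mod i 128))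
        (Nat.ble 101 b))
       (@Bool.rec (fun _ => Nat)
        (blkB2_102 (Nat.mod i 128))
        (blkB2_103 (Nat.mod i 128))
        (Nat.ble 103 b))
       (Nat.ble 102 b))
      (Nat.ble 100 b))
     (@Bool.rec (fun _ => Nat)
      (@Bool.rec (fun _ => Nat)
       (@Bool.rec (fun _ => Nat)
        (blkB2_104 (Nat.mod i 128))
        (blkB2_105 (Nat.mod i 128))
        (Nat.ble 105 b))
       (@Bool.rec (fun _ => Nat)
        (blkB2_106 (Nat.mod i 128))
        (blkB2_107 (Nat.mod i 128))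
        (Nat.ble 107 b))
       (Nat.ble 106 b))
      (@Bool.rec (fun _ => Nat)
       (@Bool.rec (fun _ => Nat)
        (blkB2_108 (Nat.mod i 128))
        (blkB2_109 (Nat.mod i 128))
        (Nat.ble 109 b))
       (@Bool.rec (fun _ => Nat)
        (blkB2_110 (Nat.mod i 128))
        (blkB2_111 (Nat.mod i 128))
        (Nat.ble 111 b))
       (Nat.ble 110 b))
      (Nat.ble 108 b))
     (Nat.ble 104 b))
    (@Bool.rec (fun _ => Nat)
     (@Bool.rec (fun _ => Nat)
      (@Bool.rec (fun _ => Nat)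
       (@Bool.rec (fun _ => Nat)
        (blkB2_112 (Nat.mod i 128))
        (blkB2_113 (Nat.mod i 128))
        (Nat.ble 113 b))
       (@Bool.rec (fun _ => Nat)
        (blkB2_114 (Nat.mod i 128))
        (blkB2_115 (Nat.mod i 128))
        (Nat.ble 115 b))
       (Nat.ble 114 b))
      (@Bool.rec (fun _ => Nat)
       (@Bool.rec (fun _ => Nat)
        0
        0
        (Nat.ble 117 b))
       (@Bool.rec (fun _ => Nat)
        0
        0
        (Nat.ble 119 b))
       (Nat.ble 118 b))
      (Nat.ble 116 b))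
     (@Bool.rec (fun _ => Nat)
      (@Bool.rec (fun _ => Nat)
       (@Bool.rec (fun _ => Nat)
        0
        0
        (Nat.ble 121 b))
       (@Bool.rec (fun _ => Nat)
        0
        0
        (Nat.ble 123 b))
       (Nat.ble 122 b))
      (@Bool.rec (fun _ => Nat)
       (@Bool.rec (fun _ => Nat)
        0
        0
        (Nat.ble 125 b))
       (@Bool.rec (fun _ => Nat)
        0
        0
        (Nat.ble 127 b))
       (Nat.ble 126 b))
      (Nat.ble 124 b))
     (Nat.ble 120 b))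
    (Nat.ble 112 b))
   (Nat.ble 96 b))
  (Nat.ble 64 b))

/-- The packed node `i` of the certificate for matching number two. -/
noncomputable def tabB2 (i : Nat) : Nat := topB2 (Nat.div i 128) i

end Vale.Agent.Lib.P045.RK
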